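import Vale.Agent.P243.H324.Defs

open MeasureTheory Set
open scoped ENNReal

namespace Vale.Agent.P243.EveryDim

theorem beta_pow (b a : ℕ) :
    ∫ x in (0 : ℝ)..1, x ^ a * (1 - x) ^ b =
      (a.factorial : ℝ) * b.factorial / (a + b + 1).factorial := by
  induction b generalizing a with
  | zero =>
    simp only [pow_zero, mul_one, Nat.factorial_zero, Nat.cast_one, add_zero]
    rw [integral_pow, Nat.factorial_succ]
    have : (a.factorial : ℝ) ≠ 0 := by positivity
    push_cast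
    field_simp
    simp
  | succ b ih =>
    have hd : ∀ x ∈ uIcc (0 : ℝ) 1, HasDerivAt
        (fun x : ℝ => x ^ (a + 1) * (1 - x) ^ (b + 1) / (a + 1))
        (x ^ a * (1 - x) ^ (b + 1) - (b + 1) / (a + 1) * (x ^ (a + 1) * (1 - x) ^ b)) x := by
      intro x _
      have h1 : HasDerivAt (fun x : ℝ => x ^ (a + 1)) ((a + 1 : ℕ) * x ^ a) x := by
        simpa using hasDerivAt_pow (a + 1) x
      have h2 : HasDerivAt (fun x : ℝ => (1 - x) ^ (b + 1))
          ((b + 1 : ℕ) * (1 - x) ^ b * (-1)) x := by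
        have h3 : HasDerivAt (fun x : ℝ => 1 - x) (-1) x := by
          simpa using (hasDerivAt_id x).const_sub 1
        have h4 := h3.fun_pow (b + 1)
        simpa using h4
      have h4 := (h1.mul h2).div_const ((a : ℝ) + 1)
      refine h4.congr_deriv ?_
      have : (a : ℝ) + 1 ≠ 0 := by positivity
      push_cast
      field_simp
      ring
    have hi : IntervalIntegrable (fun x : ℝ =>
        x ^ a * (1 - x) ^ (b + 1) - (b + 1) / (a + 1) * (x ^ (a + 1) * (1 - x) ^ b))
        volume 0 1 := by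
      apply Continuous.intervalIntegrable
      fun_prop
    have h := intervalIntegral.integral_eq_sub_of_hasDerivAt hd hi
    rw [intervalIntegral.integral_sub (by apply Continuous.intervalIntegrable; fun_prop)
      (by apply Continuous.intervalIntegrable; fun_prop),
      intervalIntegral.integral_const_mul, ih (a + 1)] at h
    have h0 : ∫ x in (0 : ℝ)..1, x ^ a * (1 - x) ^ (b + 1) =
        ((b : ℝ) + 1) / (a + 1) * (((a + 1).factorial : ℝ) * b.factorial /
          (a + 1 + b + 1).factorial) := by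
      have : ((1 : ℝ) ^ (a + 1) * (1 - 1) ^ (b + 1) / (a + 1) -
        0 ^ (a + 1) * (1 - 0) ^ (b + 1) / (a + 1)) = 0 := by simp
      linarith
    rw [h0, show a + 1 + b + 1 = a + (b + 1) + 1 by ring, Nat.factorial_succ a,
      Nat.factorial_succ b]
    have : (a : ℝ) + 1 ≠ 0 := by positivity
    have h5 : ((a + (b + 1) + 1).factorial : ℝ) ≠ 0 := by positivity
    push_cast
    field_simp

theorem beta_central (m : ℕ) (hm : 1 ≤ m) :
    ∫ x in (0 : ℝ)..1, ((m : ℝ) * x ^ (m - 1)) * (1 - x) ^ m = 1 / (Nat.centralBinom m : ℝ) := by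
  obtain ⟨n, rfl⟩ : ∃ n, m = n + 1 := ⟨m - 1, by omega⟩
  have h1 : (∫ x in (0 : ℝ)..1, (((n + 1 : ℕ) : ℝ) * x ^ (n + 1 - 1)) * (1 - x) ^ (n + 1)) =
      ((n + 1 : ℕ) : ℝ) * ∫ x in (0 : ℝ)..1, x ^ n * (1 - x) ^ (n + 1) := by
    rw [← intervalIntegral.integral_const_mul]
    congr 1
    ext x
    simp only [Nat.add_sub_cancel]
    ring
  rw [h1, beta_pow, Nat.centralBinom_eq_two_mul_choose]
  have h2 := Nat.choose_mul_factorial_mul_factorial (n := 2 * (n + 1)) (k := n + 1) (by omega)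
  rw [show 2 * (n + 1) - (n + 1) = n + 1 by omega] at h2
  rw [show n + (n + 1) + 1 = 2 * (n + 1) by ring]
  have h3 : (((2 * (n + 1)).choose (n + 1) : ℕ) : ℝ) * (n + 1).factorial * (n + 1).factorial =
      (2 * (n + 1)).factorial := by exact_mod_cast h2
  have h4 : ((2 * (n + 1)).factorial : ℝ) ≠ 0 := by positivity
  have h5 : (((2 * (n + 1)).choose (n + 1) : ℕ) : ℝ) ≠ 0 := by
    have := Nat.choose_pos (n := 2 * (n + 1)) (k := n + 1) (by omega)
    positivity
  have h6 : ((n + 1).factorial : ℝ) = ((n + 1 : ℕ) : ℝ) * n.factorial := by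
    rw [Nat.factorial_succ]; push_cast; ring
  have h7 : ((n + 1 : ℕ) : ℝ) ≠ 0 := by positivity
  have h8 : (n.factorial : ℝ) ≠ 0 := by positivity
  rw [← h3, h6]
  field_simp

/-- the fibre bound -/
theorem fibre (m : ℕ) (hm : 1 ≤ m) (S : Set ℝ) (hS0 : S ⊆ Icc 0 1)
    (φ : ℝ≥0∞) (h : ∀ t ∈ S, ENNReal.ofReal (t ^ m) ≤ φ) :
    ∫⁻ t in S, ENNReal.ofReal ((m : ℝ) * t ^ (m - 1)) ≤ φ := by
  rcases eq_or_ne φ ∞ with rfl | hφ
  · exact le_top
  set T : ℝ := φ.toReal ^ ((m : ℝ)⁻¹) with hT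
  have hT0 : 0 ≤ T := Real.rpow_nonneg ENNReal.toReal_nonneg _
  have hTm : T ^ m = φ.toReal := Real.rpow_inv_natCast_pow ENNReal.toReal_nonneg (by omega)
  have hST : S ⊆ Icc 0 T := by
    intro t ht
    refine ⟨(hS0 ht).1, ?_⟩
    have h1 : t ^ m ≤ φ.toReal := by
      have := h t ht
      exact (ENNReal.ofReal_le_iff_le_toReal hφ).1 this
    rw [← hTm] at h1
    exact (pow_le_pow_iff_left₀ (hS0 ht).1 hT0 (by omega)).1 h1
  calc ∫⁻ t in S, ENNReal.ofReal ((m : ℝ) * t ^ (m - 1))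
      ≤ ∫⁻ t in Icc 0 T, ENNReal.ofReal ((m : ℝ) * t ^ (m - 1)) := lintegral_mono_set hST
    _ = ∫⁻ t in Ioc 0 T, ENNReal.ofReal ((m : ℝ) * t ^ (m - 1)) := by
        rw [restrict_Ioc_eq_restrict_Icc]
    _ = ENNReal.ofReal (∫ t in Ioc 0 T, (m : ℝ) * t ^ (m - 1)) := by
        rw [ofReal_integral_eq_lintegral_ofReal]
        · have : IntervalIntegrable (fun t : ℝ => (m : ℝ) * t ^ (m - 1)) volume 0 T := by
            apply Continuous.intervalIntegrable; fun_prop
          exact (intervalIntegrable_iff_integrableOn_Ioc_of_le hT0).1 this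
        · refine (ae_restrict_mem measurableSet_Ioc).mono fun t ht => ?_
          have := ht.1.le
          positivity
    _ = ENNReal.ofReal (T ^ m) := by
        rw [← intervalIntegral.integral_of_le hT0, intervalIntegral.integral_const_mul,
          integral_pow, Nat.sub_add_cancel hm]
        congr 1
        have : (m : ℝ) ≠ 0 := by positivity
        rw [show ((m - 1 : ℕ) : ℝ) + 1 = m by
          rw [Nat.cast_sub hm]; simp]
        rw [zero_pow (by omega), sub_zero]
        field_simp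
    _ = φ := by rw [hTm, ENNReal.ofReal_toReal hφ]

/-- the set of pairs -/
def WP (m : ℕ) (p q : Fin m → ℝ) : Set ((Fin m → ℝ) × (Fin m → ℝ)) :=
  {z | ∃ s ∈ Icc (0 : ℝ) 1,
    (∀ k, s * p k ≤ z.1 k ∧ z.1 k ≤ s * p k + (1 - s)) ∧
    (∀ k, s * q k ≤ z.2 k ∧ z.2 k ≤ s * q k + s)}

/-- parameters `t = 1 - s` admissible for `Y` -/
def DD (m : ℕ) (q : Fin m → ℝ) : Set (ℝ × (Fin m → ℝ)) :=
  {z | ∀ k, (1 - z.1) * q k ≤ z.2 k ∧ z.2 k ≤ (1 - z.1) * q k + (1 - z.1)}

theorem measurableSet_DD (m : ℕ) (q : Fin m → ℝ) : MeasurableSet (DD m q) := by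
  have : IsClosed (DD m q) := by
    unfold DD
    simp only [Set.ofPred_forall, Set.ofPred_and]
    refine isClosed_iInter fun k => IsClosed.inter ?_ ?_
    · exact isClosed_le (by fun_prop) (by fun_prop)
    · exact isClosed_le (by fun_prop) (by fun_prop)
  exact this.measurableSet

theorem volume_box (m : ℕ) (a : Fin m → ℝ) {t : ℝ} (ht : 0 ≤ t) :
    volume {X : Fin m → ℝ | ∀ k, a k ≤ X k ∧ X k ≤ a k + t} = ENNReal.ofReal (t ^ m) := by
  have h : {X : Fin m → ℝ | ∀ k, a k ≤ X k ∧ X k ≤ a k + t} = Icc a (fun k => a k + t) := by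
    ext X
    simp only [Set.mem_ofPred_eq, mem_Icc, Pi.le_def]
    exact forall_and
  rw [h, Real.volume_Icc_pi]
  simp [ENNReal.ofReal_pow ht]

theorem volume_WP_ge (m : ℕ) (hm : 1 ≤ m) (p q : Fin m → ℝ) :
    ENNReal.ofReal (1 / (Nat.centralBinom m : ℝ)) ≤ volume (WP m p q) := by
  set T := toMeasurable (volume : Measure ((Fin m → ℝ) × (Fin m → ℝ))) (WP m p q) with hT
  have hTm : MeasurableSet T := measurableSet_toMeasurable _ _
  have hsub : WP m p q ⊆ T := subset_toMeasurable _ _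
  rw [← measure_toMeasurable, ← hT, Measure.volume_eq_prod, Measure.prod_apply_symm hTm]
  set f : ℝ → (Fin m → ℝ) → ℝ≥0∞ := fun t Y =>
    (DD m q).indicator (fun z => ENNReal.ofReal ((m : ℝ) * z.1 ^ (m - 1))) (t, Y) with hf
  have hfm : Measurable (Function.uncurry f) := by
    have : Function.uncurry f =
        (DD m q).indicator (fun z => ENNReal.ofReal ((m : ℝ) * z.1 ^ (m - 1))) := by
      ext z; rfl
    rw [this]
    exact Measurable.indicator (by fun_prop) (measurableSet_DD m q)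
  have key : ∀ Y : Fin m → ℝ, ∫⁻ t in Icc (0 : ℝ) 1, f t Y ≤
      volume ((fun X => (X, Y)) ⁻¹' T) := by
    intro Y
    have hmS : MeasurableSet {t : ℝ | (t, Y) ∈ DD m q} :=
      (measurableSet_DD m q).preimage (by fun_prop)
    have h1 : ∫⁻ t in Icc (0 : ℝ) 1, f t Y =
        ∫⁻ t in {t : ℝ | (t, Y) ∈ DD m q} ∩ Icc 0 1, ENNReal.ofReal ((m : ℝ) * t ^ (m - 1)) := by
      rw [← Measure.restrict_restrict hmS, ← lintegral_indicator hmS]
      rfl
    rw [h1]
    refine fibre m hm _ inter_subset_right _ fun t ht => ?_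
    rw [← volume_box m (fun k => (1 - t) * p k) ht.2.1]
    refine measure_mono fun X hX => hsub ?_
    refine ⟨1 - t, ⟨by linarith [ht.2.2], by linarith [ht.2.1]⟩, fun k => ?_, fun k => ?_⟩
    · have := hX k
      exact ⟨this.1, by linarith [this.2]⟩
    · exact ht.1 k
  refine le_trans ?_ (lintegral_mono key)
  rw [lintegral_lintegral_swap (f := fun (Y : Fin m → ℝ) (t : ℝ) => f t Y)
    ((hfm.comp measurable_swap).aemeasurable)]
  have h2 : ∀ t ∈ Icc (0 : ℝ) 1, ∫⁻ Y : Fin m → ℝ, f t Y =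
      ENNReal.ofReal ((m : ℝ) * t ^ (m - 1) * (1 - t) ^ m) := by
    intro t ht
    have hmS : MeasurableSet {Y : Fin m → ℝ | (t, Y) ∈ DD m q} :=
      (measurableSet_DD m q).preimage (by fun_prop)
    have h3 : ∫⁻ Y : Fin m → ℝ, f t Y =
        ∫⁻ Y in {Y : Fin m → ℝ | (t, Y) ∈ DD m q}, ENNReal.ofReal ((m : ℝ) * t ^ (m - 1)) := by
      rw [← lintegral_indicator hmS]
      rfl
    have h4 : volume {Y : Fin m → ℝ | (t, Y) ∈ DD m q} = ENNReal.ofReal ((1 - t) ^ m) :=
      volume_box (t := 1 - t) m (fun k => (1 - t) * q k) (by linarith [ht.2])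
    rw [h3, setLIntegral_const, h4, ← ENNReal.ofReal_mul]
    have := ht.1
    positivity
  rw [setLIntegral_congr_fun measurableSet_Icc h2]
  rw [← restrict_Ioc_eq_restrict_Icc, ← ofReal_integral_eq_lintegral_ofReal]
  · rw [← intervalIntegral.integral_of_le zero_le_one, beta_central m hm]
  · have : IntervalIntegrable (fun t : ℝ => (m : ℝ) * t ^ (m - 1) * (1 - t) ^ m) volume 0 1 := by
      apply Continuous.intervalIntegrable; fun_prop
    exact (intervalIntegrable_iff_integrableOn_Ioc_of_le zero_le_one).1 this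
  · refine (ae_restrict_mem measurableSet_Ioc).mono fun t ht => ?_
    have h5 := ht.1.le
    have h6 : 0 ≤ 1 - t := by linarith [ht.2]
    positivity

theorem join_volume_ge (m : ℕ) (hm : 1 ≤ m) (p q : Fin m → ℝ) :
    ENNReal.ofReal (1 / (Nat.centralBinom m : ℝ)) ≤
      volume {w : Fin (m + m) → ℝ | ∃ s ∈ Icc (0 : ℝ) 1,
        (∀ k, s * p k ≤ w (Fin.castAdd m k) ∧ w (Fin.castAdd m k) ≤ s * p k + (1 - s)) ∧
        (∀ k, s * q k ≤ w (Fin.natAdd m k) ∧ w (Fin.natAdd m k) ≤ s * q k + s)} := by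
  have e1 : MeasurePreserving
      (MeasurableEquiv.sumPiEquivProdPi (fun _ : Fin m ⊕ Fin m => ℝ)).symm volume volume :=
    volume_measurePreserving_sumPiEquivProdPi_symm _
  have e2 : MeasurePreserving
      (MeasurableEquiv.piCongrLeft (fun _ : Fin (m + m) => ℝ) finSumFinEquiv) volume volume :=
    volume_measurePreserving_piCongrLeft _ _
  rw [← e2.measure_preimage_equiv, ← e1.measure_preimage_equiv]
  convert volume_WP_ge m hm p q using 2
  ext z
  simp only [mem_preimage, Set.mem_ofPred_eq, WP]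
  have h1 : ∀ k, (MeasurableEquiv.piCongrLeft (fun _ : Fin (m + m) => ℝ) finSumFinEquiv)
      ((MeasurableEquiv.sumPiEquivProdPi (fun _ : Fin m ⊕ Fin m => ℝ)).symm z)
      (Fin.castAdd m k) = z.1 k := by
    intro k
    have := MeasurableEquiv.piCongrLeft_apply_apply (β := fun _ : Fin (m + m) => ℝ)
      finSumFinEquiv ((MeasurableEquiv.sumPiEquivProdPi (fun _ : Fin m ⊕ Fin m => ℝ)).symm z)
      (Sum.inl k)
    rw [finSumFinEquiv_apply_left] at this
    exact this
  have h2 : ∀ k, (MeasurableEquiv.piCongrLeft (fun _ : Fin (m + m) => ℝ) finSumFinEquiv)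
      ((MeasurableEquiv.sumPiEquivProdPi (fun _ : Fin m ⊕ Fin m => ℝ)).symm z)
      (Fin.natAdd m k) = z.2 k := by
    intro k
    have := MeasurableEquiv.piCongrLeft_apply_apply (β := fun _ : Fin (m + m) => ℝ)
      finSumFinEquiv ((MeasurableEquiv.sumPiEquivProdPi (fun _ : Fin m ⊕ Fin m => ℝ)).symm z)
      (Sum.inr k)
    rw [finSumFinEquiv_apply_right] at this
    exact this
  simp only [h1, h2]

end Vale.Agent.P243.EveryDim
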