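import Vale.Agent.P243.H324.Defs
import Mathlib.MeasureTheory.Measure.Lebesgue.VolumeOfBalls

open MeasureTheory Set
open scoped ENNReal

namespace Vale.Agent.P243.EveryDim

variable {d : ℕ}

namespace BlockB

/-- even (resp. odd) numbers below `n` -/
theorem card_even (n : ℕ) : ((Finset.range n).filter fun i => i % 2 = 0).card = (n + 1) / 2 := by
  induction n with
  | zero => simp
  | succ n ih =>
    rw [Finset.range_add_one, Finset.filter_insert]
    split_ifs with h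
    · rw [Finset.card_insert_of_notMem (by simp), ih]; omega
    · rw [ih]; omega

theorem card_odd (n : ℕ) : ((Finset.range n).filter fun i => i % 2 = 1).card = n / 2 := by
  induction n with
  | zero => simp
  | succ n ih =>
    rw [Finset.range_add_one, Finset.filter_insert]
    split_ifs with h
    · rw [Finset.card_insert_of_notMem (by simp), ih]; omega
    · rw [ih]; omega

/-- grid points with even sum -/
def P (n : ℕ) : Finset (ℕ × ℕ) :=
  (Finset.range n ×ˢ Finset.range n).filter fun x => (x.1 + x.2) % 2 = 0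

theorem mem_P {n i j : ℕ} : (i, j) ∈ P n ↔ i < n ∧ j < n ∧ (i + j) % 2 = 0 := by
  simp [P, and_assoc]

theorem card_P (n : ℕ) : 2 * (P n).card ≤ n ^ 2 + 1 := by
  have h : P n =
      ((Finset.range n).filter fun i => i % 2 = 0) ×ˢ ((Finset.range n).filter fun i => i % 2 = 0) ∪
      ((Finset.range n).filter fun i => i % 2 = 1) ×ˢ
        ((Finset.range n).filter fun i => i % 2 = 1) := by
    ext ⟨i, j⟩
    simp only [mem_P, Finset.mem_union, Finset.mem_product, Finset.mem_filter, Finset.mem_range]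
    omega
  have hc : (P n).card ≤ ((n + 1) / 2) * ((n + 1) / 2) + (n / 2) * (n / 2) := by
    rw [h]
    refine (Finset.card_union_le _ _).trans ?_
    rw [Finset.card_product, Finset.card_product, card_even, card_odd]
  obtain ⟨k, hk | hk⟩ : ∃ k, n = 2 * k ∨ n = 2 * k + 1 := ⟨n / 2, by omega⟩
  · have h1 : (n + 1) / 2 = k := by omega
    have h2 : n / 2 = k := by omega
    rw [h1, h2] at hc
    have e : n ^ 2 = 4 * (k * k) := by rw [hk]; ring
    omega
  · have h1 : (n + 1) / 2 = k + 1 := by omega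
    have h2 : n / 2 = k := by omega
    rw [h1, h2] at hc
    have e : n ^ 2 = 4 * (k * k) + 4 * k + 1 := by rw [hk]; ring
    have e' : (k + 1) * (k + 1) = k * k + 2 * k + 1 := by ring
    omega

/-- one coordinate pair -/
theorem one_pair {M : ℕ} (hM : 1 ≤ M) {s X Y : ℝ} (hs : s ∈ Icc (0 : ℝ) 1) (hX : 0 ≤ X)
    (hX1 : X ≤ 1 - s) (hY : 0 ≤ Y) (hY1 : Y ≤ s) :
    ∃ x ∈ P (M + 2), |X - (1 - s) * ((x.1 : ℝ) / M)| + |Y - s * ((x.2 : ℝ) / M)| ≤
      1 / (2 * (M : ℝ)) := by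
  have hM0 : (0 : ℝ) < M := by exact_mod_cast hM
  -- a grid index below a point
  have key : ∀ c Z : ℝ, 0 ≤ c → 0 ≤ Z → Z ≤ c → ∃ i : ℕ, i ≤ M ∧ ∃ a : ℝ, 0 ≤ a ∧ a ≤ c / M ∧
      |Z - c * ((i : ℝ) / M)| = a ∧ |Z - c * (((i + 1 : ℕ) : ℝ) / M)| = c / M - a := by
    intro c Z hc hZ hZc
    rcases hc.eq_or_lt with h0 | hpos
    · subst h0
      have hZ0 : Z = 0 := le_antisymm hZc hZ
      subst hZ0
      exact ⟨0, Nat.zero_le _, 0, le_rfl, by simp, by simp, by simp⟩
    · have hcM : 0 < c / M := div_pos hpos hM0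
      have hq : 0 ≤ Z / (c / M) := div_nonneg hZ hcM.le
      have h1 := Nat.floor_le hq
      have h2 := Nat.lt_floor_add_one (Z / (c / M))
      have h1' : (⌊Z / (c / M)⌋₊ : ℝ) * (c / M) ≤ Z := by
        rwa [le_div_iff₀ hcM] at h1
      have h2' : Z < ((⌊Z / (c / M)⌋₊ : ℝ) + 1) * (c / M) := by
        rwa [div_lt_iff₀ hcM] at h2
      have hle : Z / (c / M) ≤ M := by
        rw [div_le_iff₀ hcM]
        have : (M : ℝ) * (c / M) = c := by field_simp
        linarith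
      have hfl : ⌊Z / (c / M)⌋₊ ≤ M := by
        have := Nat.floor_le_floor hle
        simpa using this
      refine ⟨⌊Z / (c / M)⌋₊, hfl, Z - (⌊Z / (c / M)⌋₊ : ℝ) * (c / M), by linarith, by linarith,
        ?_, ?_⟩
      · have : Z - c * ((⌊Z / (c / M)⌋₊ : ℝ) / M) = Z - (⌊Z / (c / M)⌋₊ : ℝ) * (c / M) := by ring
        rw [this, abs_of_nonneg (by linarith)]
      · have : Z - c * (((⌊Z / (c / M)⌋₊ + 1 : ℕ) : ℝ) / M) =
            Z - ((⌊Z / (c / M)⌋₊ : ℝ) + 1) * (c / M) := by push_cast; ring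
        rw [this, abs_of_nonpos (by linarith)]
        ring
  obtain ⟨i, hi, a, ha0, ha1, ha, ha'⟩ := key (1 - s) X (by linarith [hs.2]) hX hX1
  obtain ⟨j, hj, b, hb0, hb1, hb, hb'⟩ := key s Y hs.1 hY hY1
  have hsum : (1 - s) / M + s / M = 2 * (1 / (2 * (M : ℝ))) := by field_simp; ring
  rcases Nat.mod_two_eq_zero_or_one (i + j) with hpar | hpar
  · by_cases hab : a + b ≤ 1 / (2 * (M : ℝ))
    · exact ⟨(i, j), mem_P.2 ⟨by omega, by omega, hpar⟩, by simpa only [ha, hb] using hab⟩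
    · refine ⟨(i + 1, j + 1), mem_P.2 ⟨by omega, by omega, by omega⟩, ?_⟩
      simp only [ha', hb']
      linarith
  · by_cases hab : ((1 - s) / M - a) + b ≤ 1 / (2 * (M : ℝ))
    · exact ⟨(i + 1, j), mem_P.2 ⟨by omega, by omega, by omega⟩,
        by simpa only [ha', hb] using hab⟩
    · refine ⟨(i, j + 1), mem_P.2 ⟨by omega, by omega, by omega⟩, ?_⟩
      simp only [ha, hb']
      linarith

end BlockB

theorem grid_cover (m M : ℕ) (hM : 1 ≤ M) :
    ∃ T : Finset (Fin (m + m) → ℝ),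
      (T.card : ℝ) * (1 / (2 * (M : ℝ) ^ 2)) ^ m ≤
        ((((M : ℝ) + 2) ^ 2 + 1) / (4 * (M : ℝ) ^ 2)) ^ m ∧
      ∀ s ∈ Icc (0 : ℝ) 1, ∀ w : Fin (m + m) → ℝ,
        (∀ k, 0 ≤ w (Fin.castAdd m k) ∧ w (Fin.castAdd m k) ≤ 1 - s) →
        (∀ k, 0 ≤ w (Fin.natAdd m k) ∧ w (Fin.natAdd m k) ≤ s) →
        ∃ t ∈ T, ∀ k : Fin m,
          |w (Fin.castAdd m k) - (1 - s) * t (Fin.castAdd m k)| +
            |w (Fin.natAdd m k) - s * t (Fin.natAdd m k)| ≤ 1 / (2 * (M : ℝ)) := by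
  classical
  have hM0 : (0 : ℝ) < M := by exact_mod_cast hM
  let g : (Fin m → ℕ × ℕ) → (Fin (m + m) → ℝ) := fun f =>
    Fin.addCases (fun k => ((f k).1 : ℝ) / M) (fun k => ((f k).2 : ℝ) / M)
  refine ⟨(Fintype.piFinset fun _ : Fin m => BlockB.P (M + 2)).image g, ?_, ?_⟩
  · have hcard : (((Fintype.piFinset fun _ : Fin m => BlockB.P (M + 2)).image g).card : ℝ) ≤
        ((BlockB.P (M + 2)).card : ℝ) ^ m := by
      have h := (Finset.card_image_le (s := Fintype.piFinset fun _ : Fin m => BlockB.P (M + 2))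
        (f := g))
      rw [Fintype.card_piFinset] at h
      simp only [Finset.prod_const, Finset.card_univ, Fintype.card_fin] at h
      exact_mod_cast h
    have hP : ((BlockB.P (M + 2)).card : ℝ) ≤ (((M : ℝ) + 2) ^ 2 + 1) / 2 := by
      have h := BlockB.card_P (M + 2)
      have h' : (2 : ℝ) * ((BlockB.P (M + 2)).card : ℝ) ≤ ((M : ℝ) + 2) ^ 2 + 1 := by
        exact_mod_cast h
      linarith
    have hpos : (0 : ℝ) ≤ 1 / (2 * (M : ℝ) ^ 2) := by positivity
    calc (((Fintype.piFinset fun _ : Fin m => BlockB.P (M + 2)).image g).card : ℝ) *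
          (1 / (2 * (M : ℝ) ^ 2)) ^ m
        ≤ ((BlockB.P (M + 2)).card : ℝ) ^ m * (1 / (2 * (M : ℝ) ^ 2)) ^ m :=
          mul_le_mul_of_nonneg_right hcard (pow_nonneg hpos _)
      _ = (((BlockB.P (M + 2)).card : ℝ) * (1 / (2 * (M : ℝ) ^ 2))) ^ m := (mul_pow _ _ _).symm
      _ ≤ ((((M : ℝ) + 2) ^ 2 + 1) / (4 * (M : ℝ) ^ 2)) ^ m := by
          refine pow_le_pow_left₀ (by positivity) ?_ _
          calc ((BlockB.P (M + 2)).card : ℝ) * (1 / (2 * (M : ℝ) ^ 2))
              ≤ ((((M : ℝ) + 2) ^ 2 + 1) / 2) * (1 / (2 * (M : ℝ) ^ 2)) :=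
                mul_le_mul_of_nonneg_right hP hpos
            _ = (((M : ℝ) + 2) ^ 2 + 1) / (4 * (M : ℝ) ^ 2) := by field_simp; norm_num
  · intro s hs w hw1 hw2
    choose f hf hf' using fun k : Fin m =>
      BlockB.one_pair hM hs (hw1 k).1 (hw1 k).2 (hw2 k).1 (hw2 k).2
    refine ⟨g f, Finset.mem_image_of_mem _ (Fintype.mem_piFinset.2 hf), fun k => ?_⟩
    have h1 : g f (Fin.castAdd m k) = ((f k).1 : ℝ) / M := Fin.addCases_left k
    have h2 : g f (Fin.natAdd m k) = ((f k).2 : ℝ) / M := Fin.addCases_right k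
    rw [h1, h2]
    exact hf' k

namespace BlockB

/-- the planar diamond -/
theorem planar (r : ℝ) (hr : 0 ≤ r) :
    volume {x : ℝ × ℝ | |x.1| + |x.2| ≤ r} = ENNReal.ofReal (2 * r ^ 2) := by
  have h := MeasureTheory.volume_sum_rpow_le (ι := Fin 2) (p := 1) le_rfl r
  have e := (volume_preserving_finTwoArrow ℝ).symm
  have hpre : (MeasurableEquiv.finTwoArrow (α := ℝ)).symm ⁻¹'
      {x : Fin 2 → ℝ | (∑ i, |x i| ^ (1 : ℝ)) ^ (1 / (1 : ℝ)) ≤ r} =
      {x : ℝ × ℝ | |x.1| + |x.2| ≤ r} := by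
    ext x
    simp [Fin.sum_univ_two, MeasurableEquiv.finTwoArrow]
  rw [← hpre, e.measure_preimage_equiv, h]
  have hG2 : Real.Gamma (1 / 1 + 1) = 1 := by
    norm_num
  have hG3 : Real.Gamma ((2 : ℕ) / 1 + 1) = 2 := by
    have : ((2 : ℕ) : ℝ) / 1 + 1 = ((2 : ℕ) : ℝ) + 1 := by norm_num
    rw [this, Real.Gamma_nat_eq_factorial]
    norm_num
  rw [Fintype.card_fin, hG2, hG3, ← ENNReal.ofReal_pow hr, ← ENNReal.ofReal_mul (by positivity)]
  congr 1
  ring

end BlockB

theorem diamond_volume (m : ℕ) (r : ℝ) (hr : 0 ≤ r) :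
    volume {w : Fin (m + m) → ℝ | ∀ k : Fin m,
      |w (Fin.castAdd m k)| + |w (Fin.natAdd m k)| ≤ r} = ENNReal.ofReal ((2 * r ^ 2) ^ m) := by
  have e1 := volume_measurePreserving_arrowProdEquivProdArrow ℝ ℝ (Fin m)
  have e2 := volume_measurePreserving_sumPiEquivProdPi_symm (fun _ : Fin m ⊕ Fin m => ℝ)
  have e3 := volume_measurePreserving_piCongrLeft (fun _ : Fin (m + m) => ℝ)
    (finSumFinEquiv (m := m) (n := m))
  let E := ((MeasurableEquiv.arrowProdEquivProdArrow ℝ ℝ (Fin m)).trans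
    (MeasurableEquiv.sumPiEquivProdPi (fun _ : Fin m ⊕ Fin m => ℝ)).symm).trans
    (MeasurableEquiv.piCongrLeft (fun _ : Fin (m + m) => ℝ) (finSumFinEquiv (m := m) (n := m)))
  have hE : MeasurePreserving E volume volume := (e3.comp e2).comp e1
  have hpre : E ⁻¹' {w : Fin (m + m) → ℝ | ∀ k : Fin m,
      |w (Fin.castAdd m k)| + |w (Fin.natAdd m k)| ≤ r} =
      Set.pi univ fun _ : Fin m => {x : ℝ × ℝ | |x.1| + |x.2| ≤ r} := by
    ext v
    have h1 : ∀ k : Fin m, E v (Fin.castAdd m k) = (v k).1 := by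
      intro k
      have : Fin.castAdd m k = finSumFinEquiv (Sum.inl k) := rfl
      rw [this]
      exact MeasurableEquiv.piCongrLeft_apply_apply (finSumFinEquiv (m := m) (n := m))
        (β := fun _ => ℝ) _ (Sum.inl k)
    have h2 : ∀ k : Fin m, E v (Fin.natAdd m k) = (v k).2 := by
      intro k
      have : Fin.natAdd m k = finSumFinEquiv (Sum.inr k) := rfl
      rw [this]
      exact MeasurableEquiv.piCongrLeft_apply_apply (finSumFinEquiv (m := m) (n := m))
        (β := fun _ => ℝ) _ (Sum.inr k)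
    simp only [mem_preimage, mem_ofPred_eq, Set.mem_pi, mem_univ, true_imp_iff, h1, h2]
  rw [← hE.measure_preimage_equiv, hpre, volume_pi_pi]
  simp only [BlockB.planar r hr, Finset.prod_const, Finset.card_univ, Fintype.card_fin]
  rw [ENNReal.ofReal_pow (by positivity)]

theorem centralBinom_sq (m : ℕ) :
    ((Nat.centralBinom m : ℝ) / 4 ^ m) ^ 2 ≤ 1 / (2 * (m : ℝ) + 1) := by
  induction m with
  | zero => simp
  | succ m ih =>
    have h := Nat.succ_mul_centralBinom_succ m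
    have h' : ((m : ℝ) + 1) * (Nat.centralBinom (m + 1) : ℝ) =
        2 * (2 * (m : ℝ) + 1) * (Nat.centralBinom m : ℝ) := by exact_mod_cast h
    have hm : (0 : ℝ) < (m : ℝ) + 1 := by positivity
    have h4 : (0 : ℝ) < 4 ^ m := by positivity
    have e : (Nat.centralBinom (m + 1) : ℝ) / 4 ^ (m + 1) =
        ((2 * (m : ℝ) + 1) / (2 * ((m : ℝ) + 1))) * ((Nat.centralBinom m : ℝ) / 4 ^ m) := by
      have hc : (Nat.centralBinom (m + 1) : ℝ) =
          2 * (2 * (m : ℝ) + 1) * (Nat.centralBinom m : ℝ) / ((m : ℝ) + 1) := by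
        field_simp
        linarith
      rw [hc, pow_succ]
      field_simp
      ring
    rw [e, mul_pow]
    calc ((2 * (m : ℝ) + 1) / (2 * ((m : ℝ) + 1))) ^ 2 *
          ((Nat.centralBinom m : ℝ) / 4 ^ m) ^ 2
        ≤ ((2 * (m : ℝ) + 1) / (2 * ((m : ℝ) + 1))) ^ 2 * (1 / (2 * (m : ℝ) + 1)) :=
          mul_le_mul_of_nonneg_left ih (sq_nonneg _)
      _ ≤ 1 / (2 * ((m + 1 : ℕ) : ℝ) + 1) := by
          push_cast
          rw [div_pow, div_mul_div_comm, div_le_div_iff₀ (by positivity) (by positivity)]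
          have hm' : (0 : ℝ) ≤ m := Nat.cast_nonneg m
          nlinarith [sq_nonneg (2 * (m : ℝ) + 1), mul_nonneg hm' hm']

end Vale.Agent.P243.EveryDim
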