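import Vale.Agent.P243.H324.Geom

open MeasureTheory Set
open scoped ENNReal

namespace Vale.Agent.P243.EveryDim

variable {d : ℕ}

/-- the body `[0, h] × K`, new coordinate `0` -/
def slab (h : ℝ) (K : Set (Fin (d + 1) → ℝ)) : Set (Fin (d + 2) → ℝ) :=
  {x | x 0 ∈ Icc 0 h ∧ (fun i => x i.succ) ∈ K}

namespace C515

/-- the map `(t, y) ↦ (t, y_0, y_1, …)` -/
def cn {n : ℕ} (p : ℝ × (Fin n → ℝ)) : Fin (n + 1) → ℝ := Fin.cons p.1 p.2

theorem cn_zero {n : ℕ} (p : ℝ × (Fin n → ℝ)) : cn p 0 = p.1 := rfl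

theorem cn_succ {n : ℕ} (p : ℝ × (Fin n → ℝ)) (i : Fin n) : cn p i.succ = p.2 i := by
  simp [cn]

theorem cn_tail {n : ℕ} (p : ℝ × (Fin n → ℝ)) : (fun i : Fin n => cn p i.succ) = p.2 := by
  funext i
  exact cn_succ p i

theorem cn_eta {n : ℕ} (x : Fin (n + 1) → ℝ) : cn (x 0, fun i => x i.succ) = x := by
  funext i
  refine Fin.cases rfl (fun j => ?_) i
  exact cn_succ _ j

theorem continuous_cn {n : ℕ} : Continuous (cn : ℝ × (Fin n → ℝ) → Fin (n + 1) → ℝ) := by
  refine continuous_pi fun i => ?_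
  refine Fin.cases ?_ (fun j => ?_) i
  · exact continuous_fst
  · simp only [cn_succ]
    exact (continuous_apply j).comp continuous_snd

/-- the set `I × B` in `ℝ^(n+1)` -/
def bx {n : ℕ} (I : Set ℝ) (B : Set (Fin n → ℝ)) : Set (Fin (n + 1) → ℝ) :=
  {x | x 0 ∈ I ∧ (fun i => x i.succ) ∈ B}

theorem bx_eq_image {n : ℕ} (I : Set ℝ) (B : Set (Fin n → ℝ)) : bx I B = cn '' (I ×ˢ B) := by
  ext x
  constructor
  · rintro ⟨h1, h2⟩
    exact ⟨(x 0, fun i => x i.succ), ⟨h1, h2⟩, cn_eta x⟩
  · rintro ⟨p, ⟨h1, h2⟩, rfl⟩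
    refine ⟨h1, ?_⟩
    rw [cn_tail]
    exact h2

theorem isCompact_bx {n : ℕ} {I : Set ℝ} {B : Set (Fin n → ℝ)} (hI : IsCompact I)
    (hB : IsCompact B) : IsCompact (bx I B) := by
  rw [bx_eq_image]
  exact (hI.prod hB).image continuous_cn

theorem convex_bx {n : ℕ} {I : Set ℝ} {B : Set (Fin n → ℝ)} (hI : Convex ℝ I)
    (hB : Convex ℝ B) : Convex ℝ (bx I B) := by
  have h1 := hI.linear_preimage (LinearMap.proj (R := ℝ) (φ := fun _ : Fin (n + 1) => ℝ) 0)
  have h2 := hB.linear_preimage (LinearMap.funLeft ℝ ℝ (Fin.succ : Fin n → Fin (n + 1)))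
  have h3 : bx I B = (LinearMap.proj (R := ℝ) (φ := fun _ : Fin (n + 1) => ℝ) 0) ⁻¹' I ∩
      (LinearMap.funLeft ℝ ℝ (Fin.succ : Fin n → Fin (n + 1))) ⁻¹' B := rfl
  rw [h3]
  exact h1.inter h2

/-- the measurable equivalence splitting off the first coordinate -/
noncomputable def me (n : ℕ) : (Fin (n + 1) → ℝ) ≃ᵐ ℝ × (Fin n → ℝ) :=
  MeasurableEquiv.piFinSuccAbove (fun _ => ℝ) 0

theorem me_apply {n : ℕ} (x : Fin (n + 1) → ℝ) : me n x = (x 0, fun i => x i.succ) := by
  simp only [me, MeasurableEquiv.piFinSuccAbove_apply]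
  rfl

theorem mp_me (n : ℕ) : MeasurePreserving (me n) volume volume :=
  volume_preserving_piFinSuccAbove (fun _ => ℝ) 0

theorem bx_eq_preimage {n : ℕ} (I : Set ℝ) (B : Set (Fin n → ℝ)) :
    bx I B = me n ⁻¹' (I ×ˢ B) := by
  ext x
  simp only [mem_preimage, me_apply, mem_prod]
  rfl

theorem volume_bx {n : ℕ} (I : Set ℝ) (B : Set (Fin n → ℝ)) :
    volume (bx I B) = volume I * volume B := by
  rw [bx_eq_preimage, (mp_me n).measure_preimage_equiv, Measure.volume_eq_prod,
    Measure.prod_prod]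

theorem nullMeasurable_bx {n : ℕ} {I : Set ℝ} {B : Set (Fin n → ℝ)} (hI : MeasurableSet I)
    (hB : NullMeasurableSet B volume) : NullMeasurableSet (bx I B) volume := by
  rw [bx_eq_preimage]
  refine NullMeasurableSet.preimage ?_ (mp_me n).quasiMeasurePreserving
  rw [Measure.volume_eq_prod]
  exact (hI.nullMeasurableSet).prod hB

/-- the frame `(1, 0), (0, e_j)` -/
def up (F : Frame d) : Frame (d + 1) where
  e := Fin.cons (cn (1, 0)) (fun j => cn (0, F.e j))
  orthonormal := by
    intro i j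
    refine Fin.cases ?_ (fun i' => ?_) i <;> refine Fin.cases ?_ (fun j' => ?_) j
    · simp [dotProduct, Fin.sum_univ_succ, cn_zero, cn_succ]
    · simp [dotProduct, Fin.sum_univ_succ, cn_zero, cn_succ, (Fin.succ_ne_zero j').symm]
    · simp [dotProduct, Fin.sum_univ_succ, cn_zero, cn_succ, Fin.succ_ne_zero]
    · have := F.orthonormal i' j'
      simp only [dotProduct] at this
      simp [dotProduct, Fin.sum_univ_succ, cn_zero, cn_succ, this]

theorem up_proj (F : Frame d) (x : Fin (d + 2) → ℝ) :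
    (up F).proj x = cn (x 0, F.proj fun i => x i.succ) := by
  funext i
  refine Fin.cases ?_ (fun i' => ?_) i
  · simp [Frame.proj, up, dotProduct, Fin.sum_univ_succ, cn_zero, cn_succ]
  · rw [cn_succ]
    simp [Frame.proj, up, dotProduct, Fin.sum_univ_succ, cn_zero, cn_succ]

end C515

open C515

theorem slab_eq_bx (h : ℝ) (K : Set (Fin (d + 1) → ℝ)) : slab h K = bx (Icc 0 h) K := rfl

theorem isConvexBody_slab {h : ℝ} (hh : 0 < h) {K : Set (Fin (d + 1) → ℝ)}
    (hK : IsConvexBody K) : IsConvexBody (slab h K) := by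
  refine ⟨isCompact_bx isCompact_Icc hK.1, convex_bx (convex_Icc 0 h) hK.2.1, ?_⟩
  obtain ⟨z, hz⟩ := hK.2.2
  have hop : IsOpen {x : Fin (d + 2) → ℝ | x 0 ∈ Ioo 0 h ∧ (fun i => x i.succ) ∈ interior K} :=
    (isOpen_Ioo.preimage (continuous_apply 0)).inter
      (isOpen_interior.preimage (continuous_pi fun i => continuous_apply i.succ))
  have hsub : {x : Fin (d + 2) → ℝ | x 0 ∈ Ioo 0 h ∧ (fun i => x i.succ) ∈ interior K} ⊆
      slab h K := fun x hx => ⟨Ioo_subset_Icc_self hx.1, interior_subset hx.2⟩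
  refine ⟨cn (h / 2, z), interior_maximal hsub hop ⟨⟨?_, ?_⟩, ?_⟩⟩
  · show 0 < h / 2
    linarith
  · show h / 2 < h
    linarith
  · rw [cn_tail]
    exact hz

theorem C515.volume_Icc_toReal (h : ℝ) :
    volume (Icc (0 : ℝ) h) = ENNReal.ofReal h := by
  rw [Real.volume_Icc, sub_zero]

theorem C515.up_image_slab (F : Frame d) (h : ℝ) (K : Set (Fin (d + 1) → ℝ)) :
    (up F).proj '' slab h K = bx (Icc 0 h) (F.proj '' K) := by
  ext y
  constructor
  · rintro ⟨x, ⟨h1, h2⟩, rfl⟩
    rw [up_proj]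
    refine ⟨h1, ?_⟩
    rw [cn_tail]
    exact ⟨_, h2, rfl⟩
  · rintro ⟨h1, k, hk, h2⟩
    refine ⟨cn (y 0, k), ⟨h1, ?_⟩, ?_⟩
    · rw [cn_tail]
      exact hk
    · rw [up_proj, cn_tail, cn_zero, h2]
      exact cn_eta y

theorem C515.up_shadow_slab (F : Frame d) {h : ℝ} (hh : 0 < h) (K : Set (Fin (d + 1) → ℝ)) :
    (up F).shadow (slab h K) = h * F.shadow K := by
  unfold Frame.shadow
  rw [up_image_slab, volume_bx, volume_Icc_toReal, ENNReal.toReal_mul,
    ENNReal.toReal_ofReal hh.le]

/-- a covering of `K` gives a covering of the slab, bases `base i × [0, h]` -/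
theorem slab_covering {h : ℝ} (hh : 0 < h) {K : Set (Fin (d + 1) → ℝ)} (hK : IsConvexBody K)
    (C : CylinderCovering K) :
    ∃ C' : CylinderCovering (slab h K), C'.totalArea = h * C.totalArea ∧
      C'.relArea = C.relArea ∧
      ((∀ i, IsCompact (C.base i) ∧ Convex ℝ (C.base i)) →
        ∀ i, IsCompact (C'.base i) ∧ Convex ℝ (C'.base i)) := by
  refine ⟨⟨C.m, fun i => up (C.frame i), fun i => bx (Icc 0 h) (C.base i),
    fun i => nullMeasurable_bx measurableSet_Icc (C.measurable_base i), fun i => ?_, ?_⟩,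
    ?_, ?_, ?_⟩
  · rw [volume_bx, volume_Icc_toReal]
    exact ENNReal.mul_ne_top ENNReal.ofReal_ne_top (C.finite_volume i)
  · rintro x ⟨h1, h2⟩
    obtain ⟨i, hi⟩ := mem_iUnion.1 (C.covers h2)
    refine mem_iUnion.2 ⟨i, ?_⟩
    show (up (C.frame i)).proj x ∈ bx (Icc 0 h) (C.base i)
    rw [up_proj]
    refine ⟨h1, ?_⟩
    rw [cn_tail]
    exact hi
  · simp only [CylinderCovering.totalArea, volume_bx, volume_Icc_toReal, ENNReal.toReal_mul,
      ENNReal.toReal_ofReal hh.le, Finset.mul_sum]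
  · simp only [CylinderCovering.relArea, volume_bx, volume_Icc_toReal, ENNReal.toReal_mul,
      ENNReal.toReal_ofReal hh.le, up_shadow_slab _ hh]
    exact Finset.sum_congr rfl fun i _ => mul_div_mul_left _ _ hh.ne'
  · intro hC i
    exact ⟨isCompact_bx isCompact_Icc (hC i).1, convex_bx (convex_Icc 0 h) (hC i).2⟩

namespace C515

/-- slices in the first coordinate bound the volume from below -/
theorem volume_ge_of_slices {n : ℕ} {S : Set (Fin (n + 1) → ℝ)} (hS : MeasurableSet S)
    {B : Set (Fin n → ℝ)} (hB : MeasurableSet B) {l : ℝ}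
    (hl : ∀ y ∈ B, ENNReal.ofReal l ≤ volume {t : ℝ | cn (t, y) ∈ S}) :
    ENNReal.ofReal l * volume B ≤ volume S := by
  have h1 : volume S = volume ((me n).symm ⁻¹' S) := by
    rw [((mp_me n).symm (me n)).measure_preimage_equiv]
  have h2 : MeasurableSet ((me n).symm ⁻¹' S) := (me n).symm.measurable hS
  have hsym : ∀ p : ℝ × (Fin n → ℝ), (me n).symm p = cn p := by
    intro p
    apply (me n).injective
    rw [MeasurableEquiv.apply_symm_apply, me_apply, cn_tail]
    rfl
  rw [h1, Measure.volume_eq_prod, Measure.prod_apply_symm h2]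
  calc ENNReal.ofReal l * volume B = ∫⁻ _ in B, ENNReal.ofReal l := by
        rw [setLIntegral_const]
    _ ≤ ∫⁻ y in B, volume ((fun x => (x, y)) ⁻¹' ((me n).symm ⁻¹' S)) := by
        refine setLIntegral_mono' hB fun y hy => (hl y hy).trans (le_of_eq ?_)
        congr 1
        ext t
        simp only [Set.mem_ofPred_eq, mem_preimage, hsym]
    _ ≤ _ := setLIntegral_le_lintegral _ _

end C515

/-- every shadow of a slab is at least `min (δ |K|) (h √(1 - δ²) Amin K)` -/
theorem slab_shadow_ge {h : ℝ} (hh : 0 < h) {K : Set (Fin (d + 1) → ℝ)}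
    (hK : IsConvexBody K) {δ : ℝ} (hδ : 0 ≤ δ) (hδ1 : δ < 1) (F : Frame (d + 1)) :
    δ * (volume K).toReal ≤ F.shadow (slab h K) ∨
      h * Real.sqrt (1 - δ ^ 2) * Amin K ≤ F.shadow (slab h K) := by
  obtain ⟨u, hu, hFu⟩ := F.exists_normal
  have hcp : IsCompact (slab h K) := (isConvexBody_slab hh hK).1
  have hfin : volume (F.proj '' slab h K) ≠ ∞ := F.volume_proj_ne_top hcp
  rcases le_or_gt δ |u 0| with hw | hw
  · left
    rcases eq_or_ne (u 0) 0 with h0 | h0
    · rw [h0, abs_zero] at hw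
      have : δ = 0 := le_antisymm hw hδ
      rw [this, zero_mul]
      exact ENNReal.toReal_nonneg
    · have h1 := F.volume_proj_image hu hFu h0 (slab h K)
      have h2 : K ⊆ ob u '' slab h K := by
        intro k hk
        refine ⟨cn (0, k), ⟨⟨le_rfl, hh.le⟩, ?_⟩, ?_⟩
        · rw [cn_tail]
          exact hk
        · funext i
          simp only [ob, cn_succ, cn_zero]
          ring
      have h3 : ENNReal.ofReal |u 0| * volume K ≤ volume (F.proj '' slab h K) := by
        rw [h1]
        gcongr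
      have h4 := ENNReal.toReal_mono hfin h3
      rw [ENNReal.toReal_mul, ENNReal.toReal_ofReal (abs_nonneg _)] at h4
      refine le_trans ?_ h4
      gcongr
  · right
    set w : ℝ := u 0 with hwdef
    set v : Fin (d + 1) → ℝ := fun i => u i.succ with hvdef
    set N : ℝ := Real.sqrt (v ⬝ᵥ v) with hN
    have huv : w * w + v ⬝ᵥ v = 1 := by
      rw [← hu]
      simp only [dotProduct, Fin.sum_univ_succ (f := fun i : Fin (d + 2) => u i * u i)]
      rfl
    have hw2 : w * w ≤ δ ^ 2 := by
      have := abs_le_abs (le_of_lt (lt_of_le_of_lt (le_abs_self w) hw)) (by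
        have := neg_abs_le w
        linarith)
      rw [abs_of_nonneg hδ] at this
      nlinarith [abs_nonneg w, abs_mul_abs_self w]
    have hvv : 1 - δ ^ 2 ≤ v ⬝ᵥ v := by linarith
    have hpos : 0 < 1 - δ ^ 2 := by nlinarith
    have hvpos : 0 < v ⬝ᵥ v := lt_of_lt_of_le hpos hvv
    have hNpos : 0 < N := Real.sqrt_pos.2 hvpos
    have hNN : N * N = v ⬝ᵥ v := Real.mul_self_sqrt hvpos.le
    have hNge : Real.sqrt (1 - δ ^ 2) ≤ N := Real.sqrt_le_sqrt hvv
    obtain ⟨G, hG⟩ := exists_frame (d := d) (fun i => v i / N) (by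
      have : (fun i => v i / N) ⬝ᵥ (fun i => v i / N) = (v ⬝ᵥ v) / (N * N) := by
        simp only [dotProduct, Finset.sum_div]
        exact Finset.sum_congr rfl fun i _ => by ring
      rw [this, hNN, div_self hvpos.ne'])
    have hG' : ∀ j, G.e j ⬝ᵥ v = 0 := by
      intro j
      have h1 := hG j
      have h2 : G.e j ⬝ᵥ (fun i => v i / N) = (G.e j ⬝ᵥ v) / N := by
        simp only [dotProduct, Finset.sum_div]
        exact Finset.sum_congr rfl fun i _ => by ring
      rw [h2] at h1
      exact (div_eq_zero_iff.1 h1).resolve_right hNpos.ne'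
    -- the frame with the same normal
    have hdot : ∀ (a b : ℝ) (y z : Fin (d + 1) → ℝ),
        cn (a, y) ⬝ᵥ cn (b, z) = a * b + y ⬝ᵥ z := by
      intro a b y z
      simp [dotProduct, Fin.sum_univ_succ, cn_zero, cn_succ]
    let g₀ : Fin (d + 2) → ℝ := cn (N, fun i => -(w / N) * v i)
    have hg0 : (fun i => -(w / N) * v i) ⬝ᵥ (fun i => -(w / N) * v i) =
        (w / N) ^ 2 * (v ⬝ᵥ v) := by
      simp only [dotProduct, Finset.mul_sum]
      exact Finset.sum_congr rfl fun i _ => by ring
    have hgj : ∀ z : Fin (d + 1) → ℝ, (fun i => -(w / N) * v i) ⬝ᵥ z = -(w / N) * (v ⬝ᵥ z) := by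
      intro z
      simp only [dotProduct, Finset.mul_sum]
      exact Finset.sum_congr rfl fun i _ => by ring
    let G' : Frame (d + 1) :=
      { e := Fin.cons g₀ (fun j => cn (0, G.e j))
        orthonormal := by
          intro i j
          refine Fin.cases ?_ (fun i' => ?_) i <;> refine Fin.cases ?_ (fun j' => ?_) j
          · simp only [Fin.cons_zero, if_true]
            rw [show g₀ ⬝ᵥ g₀ = N * N + (w / N) ^ 2 * (v ⬝ᵥ v) by rw [hdot, hg0]]
            rw [← hNN]
            have : (w / N) ^ 2 * (N * N) = w * w := by field_simp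
            rw [this, hNN]
            linarith
          · simp only [Fin.cons_zero, Fin.cons_succ, (Fin.succ_ne_zero j').symm, if_false]
            rw [show g₀ ⬝ᵥ cn (0, G.e j') = N * 0 + -(w / N) * (v ⬝ᵥ G.e j') by
              rw [hdot, hgj], dotProduct_comm, hG' j']
            ring
          · simp only [Fin.cons_zero, Fin.cons_succ, Fin.succ_ne_zero, if_false]
            rw [dotProduct_comm, show g₀ ⬝ᵥ cn (0, G.e i') = N * 0 + -(w / N) * (v ⬝ᵥ G.e i') by
              rw [hdot, hgj], dotProduct_comm v, hG' i']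
            ring
          · simp only [Fin.cons_succ, Fin.succ_inj]
            rw [hdot, G.orthonormal]
            ring }
    have hueq : cn (w, v) = u := cn_eta u
    have hGu : ∀ i, G'.e i ⬝ᵥ u = 0 := by
      intro i
      refine Fin.cases ?_ (fun i' => ?_) i
      · show g₀ ⬝ᵥ u = 0
        rw [← hueq, hdot, hgj, ← hNN]
        field_simp
        ring
      · show cn (0, G.e i') ⬝ᵥ u = 0
        rw [← hueq, hdot, hG']
        ring
    have hproj : ∀ (t : ℝ) (k : Fin (d + 1) → ℝ),
        G'.proj (cn (t, k)) = cn (N * t + -(w / N) * (v ⬝ᵥ k), G.proj k) := by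
      intro t k
      funext i
      refine Fin.cases ?_ (fun i' => ?_) i
      · show g₀ ⬝ᵥ cn (t, k) = _
        rw [hdot, hgj]
        rfl
      · show cn (0, G.e i') ⬝ᵥ cn (t, k) = _
        rw [hdot, cn_succ]
        simp [Frame.proj]
    have hcont : Continuous G'.proj := by
      refine continuous_pi fun i => ?_
      simp only [Frame.proj, dotProduct]
      exact continuous_finsetSum _ fun j _ => continuous_const.mul (continuous_apply j)
    have hcontG : Continuous G.proj := by
      refine continuous_pi fun i => ?_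
      simp only [Frame.proj, dotProduct]
      exact continuous_finsetSum _ fun j _ => continuous_const.mul (continuous_apply j)
    have hS : MeasurableSet (G'.proj '' slab h K) := (hcp.image hcont).measurableSet
    have hB : MeasurableSet (G.proj '' K) := (hK.1.image hcontG).measurableSet
    have hvol : ENNReal.ofReal (N * h) * volume (G.proj '' K) ≤ volume (G'.proj '' slab h K) := by
      refine volume_ge_of_slices hS hB ?_
      rintro y ⟨k, hk, rfl⟩
      set c₀ : ℝ := -(w / N) * (v ⬝ᵥ k) with hc₀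
      have hsub : Icc c₀ (c₀ + N * h) ⊆ {t : ℝ | cn (t, G.proj k) ∈ G'.proj '' slab h K} := by
        rintro t ⟨ht1, ht2⟩
        refine ⟨cn ((t - c₀) / N, k), ⟨⟨?_, ?_⟩, ?_⟩, ?_⟩
        · exact div_nonneg (by linarith) hNpos.le
        · show (t - c₀) / N ≤ h
          rw [div_le_iff₀ hNpos]
          linarith
        · rw [cn_tail]
          exact hk
        · have h7 : N * ((t - c₀) / N) = t - c₀ := by field_simp
          rw [hproj, ← hc₀, h7, sub_add_cancel]
      calc ENNReal.ofReal (N * h) = volume (Icc c₀ (c₀ + N * h)) := by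
            rw [Real.volume_Icc]
            congr 1
            ring
        _ ≤ _ := measure_mono hsub
    have hcongr : volume (F.proj '' slab h K) = volume (G'.proj '' slab h K) :=
      volume_proj_congr F G' hu hFu hGu _
    have h3 : ENNReal.ofReal (N * h) * volume (G.proj '' K) ≤ volume (F.proj '' slab h K) := by
      rw [hcongr]
      exact hvol
    have h4 := ENNReal.toReal_mono hfin h3
    rw [ENNReal.toReal_mul, ENNReal.toReal_ofReal (by positivity)] at h4
    have h5 : Amin K ≤ (volume (G.proj '' K)).toReal := Amin_le G K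
    have h6 : 0 ≤ (volume (G.proj '' K)).toReal := ENNReal.toReal_nonneg
    calc h * Real.sqrt (1 - δ ^ 2) * Amin K
        ≤ h * Real.sqrt (1 - δ ^ 2) * (volume (G.proj '' K)).toReal := by gcongr
      _ ≤ h * N * (volume (G.proj '' K)).toReal := by gcongr
      _ = N * h * (volume (G.proj '' K)).toReal := by ring
      _ ≤ F.shadow (slab h K) := h4

end Vale.Agent.P243.EveryDim
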