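import Vale.Agent.P243.H324.Defs

/-! # Block D: dimension three, comparison with the plain definitions -/

open MeasureTheory Set
open scoped ENNReal

namespace Vale.Agent.P243.EveryDim

/-- coordinates of the plane -/
noncomputable abbrev e2 : (Fin 2 → ℝ) ≃ᵐ ℝ × ℝ := MeasurableEquiv.finTwoArrow

theorem measurePreserving_e2 : MeasurePreserving e2 volume volume := volume_preserving_finTwoArrow ℝ

theorem volume_e2_image (T : Set (Fin 2 → ℝ)) : volume (e2 '' T) = volume T := by
  rw [← measurePreserving_e2.measure_preimage_equiv (e2 '' T),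
    Set.preimage_image_eq _ e2.injective]

theorem volume_e2_preimage (T : Set (ℝ × ℝ)) : volume (e2 ⁻¹' T) = volume T :=
  measurePreserving_e2.measure_preimage_equiv T

/-- the frame of the plain definitions -/
def toPlain (F : Frame 2) : Vale.Agent.P243.Plain.Frame where
  e := F.e 0
  f := F.e 1
  norm_e := by simpa using F.orthonormal 0 0
  norm_f := by simpa using F.orthonormal 1 1
  orthogonal := by simpa using F.orthonormal 0 1

/-- the frame of the general definitions -/
def ofPlain (F : Vale.Agent.P243.Plain.Frame) : Frame 2 where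
  e := ![F.e, F.f]
  orthonormal := by
    intro i j
    fin_cases i <;> fin_cases j
    · simpa using F.norm_e
    · simpa using F.orthogonal
    · simpa [dotProduct_comm] using F.orthogonal
    · simpa using F.norm_f

theorem toPlain_ofPlain (F : Vale.Agent.P243.Plain.Frame) : toPlain (ofPlain F) = F := rfl

theorem toPlain_proj (F : Frame 2) (x : Fin 3 → ℝ) : (toPlain F).proj x = e2 (F.proj x) := rfl

theorem toPlain_shadow (F : Frame 2) (K : Set (Fin 3 → ℝ)) :
    (toPlain F).shadow K = F.shadow K := by
  unfold Vale.Agent.P243.Plain.Frame.shadow Frame.shadow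
  have h : (toPlain F).proj '' K = e2 '' (F.proj '' K) := by
    rw [Set.image_image]
    rfl
  rw [h, volume_e2_image]

theorem Amin_two (K : Set (Fin 3 → ℝ)) : Amin (d := 2) K = Vale.Agent.P243.Plain.Amin K := by
  unfold Amin Vale.Agent.P243.Plain.Amin
  refine Function.Surjective.iInf_congr toPlain (fun F => ⟨ofPlain F, rfl⟩) fun F => ?_
  exact toPlain_shadow F K

theorem isConvexBody_two (K : Set (Fin 3 → ℝ)) :
    IsConvexBody (d := 2) K ↔ Vale.Agent.P243.Plain.IsConvexBody K := Iff.rfl

/-- a covering in the general definitions gives one in the plain definitions -/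
theorem exists_toPlain {K : Set (Fin 3 → ℝ)} (C : CylinderCovering (d := 2) K) :
    ∃ C' : Vale.Agent.P243.Plain.CylinderCovering K,
      C'.totalArea = C.totalArea ∧ C'.relArea = C.relArea := by
  refine ⟨{ m := C.m, frame := fun i => toPlain (C.frame i), base := fun i => e2 '' C.base i,
            measurable_base := ?_, finite_area := ?_, covers := ?_ }, ?_, ?_⟩
  · intro i
    rw [MeasurableEquiv.image_eq_preimage_symm]
    exact (C.measurable_base i).preimage measurePreserving_e2.symm.quasiMeasurePreserving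
  · intro i
    rw [volume_e2_image]
    exact C.finite_volume i
  · intro x hx
    obtain ⟨i, hi⟩ := Set.mem_iUnion.mp (C.covers hx)
    exact Set.mem_iUnion.mpr ⟨i, ⟨_, hi, rfl⟩⟩
  · unfold Vale.Agent.P243.Plain.CylinderCovering.totalArea CylinderCovering.totalArea
    refine Finset.sum_congr rfl fun i _ => ?_
    change (volume (e2 '' C.base i)).toReal = _
    rw [volume_e2_image]
  · unfold Vale.Agent.P243.Plain.CylinderCovering.relArea CylinderCovering.relArea
    refine Finset.sum_congr rfl fun i _ => ?_
    change (volume (e2 '' C.base i)).toReal / (toPlain (C.frame i)).shadow K = _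
    rw [volume_e2_image, toPlain_shadow]

theorem isCompact_e2_preimage {B : Set (ℝ × ℝ)} (h : IsCompact B) : IsCompact (e2 ⁻¹' B) := by
  have h1 : e2 ⁻¹' B = (fun z : ℝ × ℝ => (![z.1, z.2] : Fin 2 → ℝ)) '' B := by
    ext v
    constructor
    · intro hv
      refine ⟨e2 v, hv, ?_⟩
      funext i
      fin_cases i <;> rfl
    · rintro ⟨z, hz, rfl⟩
      exact hz
  rw [h1]
  refine h.image (continuous_pi fun i => ?_)
  fin_cases i
  · exact continuous_fst
  · exact continuous_snd

theorem convex_e2_preimage {B : Set (ℝ × ℝ)} (h : Convex ℝ B) : Convex ℝ (e2 ⁻¹' B) := by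
  intro x hx y hy a b ha hb hab
  exact h hx hy ha hb hab

/-- a covering in the plain definitions gives one in the general definitions -/
theorem exists_ofPlain {K : Set (Fin 3 → ℝ)} (C : Vale.Agent.P243.Plain.CylinderCovering K) :
    ∃ C' : CylinderCovering (d := 2) K, C'.totalArea = C.totalArea ∧ C'.relArea = C.relArea ∧
      ((∀ i, IsCompact (C.base i) ∧ Convex ℝ (C.base i)) →
        ∀ i, IsCompact (C'.base i) ∧ Convex ℝ (C'.base i)) := by
  refine ⟨{ m := C.m, frame := fun i => ofPlain (C.frame i), base := fun i => e2 ⁻¹' C.base i,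
            measurable_base := ?_, finite_volume := ?_, covers := ?_ }, ?_, ?_, ?_⟩
  · intro i
    exact (C.measurable_base i).preimage measurePreserving_e2.quasiMeasurePreserving
  · intro i
    rw [volume_e2_preimage]
    exact C.finite_area i
  · intro x hx
    obtain ⟨i, hi⟩ := Set.mem_iUnion.mp (C.covers hx)
    exact Set.mem_iUnion.mpr ⟨i, hi⟩
  · unfold Vale.Agent.P243.Plain.CylinderCovering.totalArea CylinderCovering.totalArea
    refine Finset.sum_congr rfl fun i _ => ?_
    change (volume (e2 ⁻¹' C.base i)).toReal = _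
    rw [volume_e2_preimage]
  · unfold Vale.Agent.P243.Plain.CylinderCovering.relArea CylinderCovering.relArea
    refine Finset.sum_congr rfl fun i _ => ?_
    change (volume (e2 ⁻¹' C.base i)).toReal / (ofPlain (C.frame i)).shadow K = _
    rw [volume_e2_preimage, ← toPlain_shadow, toPlain_ofPlain]
  · intro h i
    exact ⟨isCompact_e2_preimage (h i).1, convex_e2_preimage (h i).2⟩

theorem c_two_eq : c 2 = Vale.Agent.P243.Plain.c3 := by
  unfold c Vale.Agent.P243.Plain.c3
  congr 1
  ext x
  constructor
  · rintro ⟨K, hK, C, rfl⟩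
    obtain ⟨C', h1, -⟩ := exists_toPlain C
    exact ⟨K, hK, C', by rw [h1, Amin_two]⟩
  · rintro ⟨K, hK, C, rfl⟩
    obtain ⟨C', h1, -, -⟩ := exists_ofPlain C
    exact ⟨K, hK, C', by rw [h1, Amin_two]⟩

theorem r_two_eq : r 2 = Vale.Agent.P243.Plain.r3 := by
  unfold r Vale.Agent.P243.Plain.r3
  congr 1
  ext x
  constructor
  · rintro ⟨K, hK, C, rfl⟩
    obtain ⟨C', -, h1⟩ := exists_toPlain C
    exact ⟨K, hK, C', h1.symm⟩
  · rintro ⟨K, hK, C, rfl⟩
    obtain ⟨C', -, h1, -⟩ := exists_ofPlain C
    exact ⟨K, hK, C', h1.symm⟩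

theorem transfer_two {K : Set (Fin 3 → ℝ)} (hK : Vale.Agent.P243.Plain.IsConvexBody K)
    (C : Vale.Agent.P243.Plain.CylinderCovering K)
    (hC : ∀ i, IsCompact (C.base i) ∧ Convex ℝ (C.base i)) :
    IsConvexBody (d := 2) K ∧ Amin (d := 2) K = Vale.Agent.P243.Plain.Amin K ∧
      ∃ C' : CylinderCovering (d := 2) K, C'.totalArea = C.totalArea ∧ C'.relArea = C.relArea ∧
        ∀ i, IsCompact (C'.base i) ∧ Convex ℝ (C'.base i) := by
  obtain ⟨C', h1, h2, h3⟩ := exists_ofPlain C
  exact ⟨hK, Amin_two K, C', h1, h2, h3 hC⟩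

end Vale.Agent.P243.EveryDim
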