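import Vale.Agent.P243.H324.Join

open MeasureTheory Set Filter Topology
open scoped ENNReal

namespace Vale.Agent.P243.EveryDim

variable {m : ℕ}

/-- The chord direction belonging to `t`. -/
noncomputable def chord (m : ℕ) (L : ℝ) (t : Fin (m + m) → ℝ) : Fin (m + m + 1) → ℝ :=
  Fin.cons L (Fin.addCases (fun k => -t (Fin.castAdd m k)) (fun k => t (Fin.natAdd m k)))

theorem chord_zero (L : ℝ) (t : Fin (m + m) → ℝ) : chord m L t 0 = L := by
  simp [chord]

theorem chord_left (L : ℝ) (t : Fin (m + m) → ℝ) (k : Fin m) :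
    chord m L t (Fin.castAdd m k).succ = -t (Fin.castAdd m k) := by
  simp [chord]

theorem chord_right (L : ℝ) (t : Fin (m + m) → ℝ) (k : Fin m) :
    chord m L t (Fin.natAdd m k).succ = t (Fin.natAdd m k) := by
  simp only [chord, Fin.cons_succ, Fin.addCases_right]

/-- The set in the hyperplane `x 0 = 0` whose projection is the base of the tube. -/
def plate (m : ℕ) (r : ℝ) (t : Fin (m + m) → ℝ) : Set (Fin (m + m + 1) → ℝ) :=
  {x | x 0 = 0 ∧ ∀ k : Fin m, |x (Fin.castAdd m k).succ - t (Fin.castAdd m k)| +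
    |x (Fin.natAdd m k).succ| ≤ r}

theorem isCompact_plate (r : ℝ) (t : Fin (m + m) → ℝ) : IsCompact (plate m r t) := by
  have hc : ∀ i, Continuous fun x : Fin (m + m + 1) → ℝ => x i := fun i => continuous_apply i
  have h1 : IsClosed (plate m r t) := by
    have h2 : IsClosed {x : Fin (m + m + 1) → ℝ | x 0 = 0} := isClosed_eq (hc 0) continuous_const
    have h3 : IsClosed {x : Fin (m + m + 1) → ℝ | ∀ k : Fin m,
        |x (Fin.castAdd m k).succ - t (Fin.castAdd m k)| + |x (Fin.natAdd m k).succ| ≤ r} := by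
      rw [ofPred_forall]
      refine isClosed_iInter fun k => ?_
      exact isClosed_le (((hc _).sub continuous_const).abs.add (hc _).abs) continuous_const
    exact h2.inter h3
  refine IsCompact.of_isClosed_subset
    (isCompact_Icc (a := (Fin.cons 0 (Fin.addCases (fun k => t (Fin.castAdd m k) - r)
      (fun _ => -r)) : Fin (m + m + 1) → ℝ))
      (b := (Fin.cons 0 (Fin.addCases (fun k => t (Fin.castAdd m k) + r)
      (fun _ => r)) : Fin (m + m + 1) → ℝ))) h1 ?_
  rintro x ⟨h0, hk⟩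
  constructor
  · intro i
    refine Fin.cases ?_ (fun j => ?_) i
    · simp [h0]
    · refine Fin.addCases (fun k => ?_) (fun k => ?_) j
      · have h4 := hk k
        have h5 := abs_nonneg (x (Fin.natAdd m k).succ)
        have h6 := neg_abs_le (x (Fin.castAdd m k).succ - t (Fin.castAdd m k))
        simp only [Fin.cons_succ, Fin.addCases_left]
        linarith
      · have h4 := hk k
        have h5 := abs_nonneg (x (Fin.castAdd m k).succ - t (Fin.castAdd m k))
        have h6 := neg_abs_le (x (Fin.natAdd m k).succ)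
        simp only [Fin.cons_succ, Fin.addCases_right]
        linarith
  · intro i
    refine Fin.cases ?_ (fun j => ?_) i
    · simp [h0]
    · refine Fin.addCases (fun k => ?_) (fun k => ?_) j
      · have h4 := hk k
        have h5 := abs_nonneg (x (Fin.natAdd m k).succ)
        have h6 := le_abs_self (x (Fin.castAdd m k).succ - t (Fin.castAdd m k))
        simp only [Fin.cons_succ, Fin.addCases_left]
        linarith
      · have h4 := hk k
        have h5 := abs_nonneg (x (Fin.castAdd m k).succ - t (Fin.castAdd m k))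
        have h6 := le_abs_self (x (Fin.natAdd m k).succ)
        simp only [Fin.cons_succ, Fin.addCases_right]
        linarith

theorem convex_plate (r : ℝ) (t : Fin (m + m) → ℝ) : Convex ℝ (plate m r t) := by
  rintro x ⟨h0, hk⟩ y ⟨g0, gk⟩ a b ha hb hab
  refine ⟨by simp [h0, g0], fun k => ?_⟩
  have hb' : b = 1 - a := by linarith
  have e1 : (a • x + b • y) (Fin.castAdd m k).succ - t (Fin.castAdd m k) =
      a * (x (Fin.castAdd m k).succ - t (Fin.castAdd m k)) +
        b * (y (Fin.castAdd m k).succ - t (Fin.castAdd m k)) := by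
    simp only [Pi.add_apply, Pi.smul_apply, smul_eq_mul]
    rw [hb']
    ring
  have e2 : (a • x + b • y) (Fin.natAdd m k).succ =
      a * x (Fin.natAdd m k).succ + b * y (Fin.natAdd m k).succ := rfl
  rw [e1, e2]
  have f1 := abs_add_le (a * (x (Fin.castAdd m k).succ - t (Fin.castAdd m k)))
    (b * (y (Fin.castAdd m k).succ - t (Fin.castAdd m k)))
  have f2 := abs_add_le (a * x (Fin.natAdd m k).succ) (b * y (Fin.natAdd m k).succ)
  rw [abs_mul, abs_mul, abs_of_nonneg ha, abs_of_nonneg hb] at f1 f2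
  have f3 := mul_le_mul_of_nonneg_left (hk k) ha
  have f4 := mul_le_mul_of_nonneg_left (gk k) hb
  have f5 : a * r + b * r = r := by rw [← add_mul, hab, one_mul]
  rw [mul_add] at f3 f4
  linarith

theorem Frame.proj_smul_add {d : ℕ} (F : Frame d) (a b : ℝ) (x y : Fin (d + 1) → ℝ) :
    F.proj (a • x + b • y) = a • F.proj x + b • F.proj y := by
  ext i
  simp [Frame.proj, dotProduct_add, dotProduct_smul]

theorem Frame.convex_image {d : ℕ} (F : Frame d) {S : Set (Fin (d + 1) → ℝ)}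
    (hS : Convex ℝ S) : Convex ℝ (F.proj '' S) := by
  rintro _ ⟨x, hx, rfl⟩ _ ⟨y, hy, rfl⟩ a b ha hb hab
  exact ⟨a • x + b • y, hS hx hy ha hb hab, F.proj_smul_add a b x y⟩

/-- The tube belonging to `t`. -/
theorem exists_tube {L : ℝ} (hL : 0 < L) {r : ℝ} (hr : 0 ≤ r) (t : Fin (m + m) → ℝ) :
    ∃ F : Frame (m + m), (∀ i, F.e i ⬝ᵥ chord m L t = 0) ∧
      volume (F.proj '' plate m r t) ≤ ENNReal.ofReal ((2 * r ^ 2) ^ m) := by
  set v := chord m L t with hv
  have hv0 : v 0 = L := chord_zero L t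
  have hvv : 0 < v ⬝ᵥ v := by
    have h1 : v 0 * v 0 ≤ v ⬝ᵥ v :=
      Finset.single_le_sum (f := fun i => v i * v i) (fun i _ => mul_self_nonneg _)
        (Finset.mem_univ 0)
    rw [hv0] at h1
    nlinarith
  set n := Real.sqrt (v ⬝ᵥ v) with hn
  have hnpos : 0 < n := Real.sqrt_pos.2 hvv
  have hnn : n * n = v ⬝ᵥ v := Real.mul_self_sqrt hvv.le
  set u : Fin (m + m + 1) → ℝ := n⁻¹ • v with hu
  have huu : u ⬝ᵥ u = 1 := by
    rw [hu, smul_dotProduct, dotProduct_smul, smul_eq_mul, smul_eq_mul, ← hnn]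
    field_simp
  obtain ⟨F, hF⟩ := exists_frame u huu
  have hFv : ∀ i, F.e i ⬝ᵥ v = 0 := by
    intro i
    have h1 := hF i
    rw [hu, dotProduct_smul, smul_eq_mul] at h1
    rcases mul_eq_zero.1 h1 with h2 | h2
    · exact absurd h2 (inv_ne_zero hnpos.ne')
    · exact h2
  refine ⟨F, hFv, ?_⟩
  have hu0 : u 0 = n⁻¹ * L := by rw [hu, Pi.smul_apply, smul_eq_mul, hv0]
  have hu0pos : 0 < u 0 := by rw [hu0]; positivity
  have hu1 : |u 0| ≤ 1 := by
    have h1 : u 0 * u 0 ≤ u ⬝ᵥ u :=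
      Finset.single_le_sum (f := fun i => u i * u i) (fun i _ => mul_self_nonneg _)
        (Finset.mem_univ 0)
    rw [huu] at h1
    exact abs_le.2 ⟨by nlinarith, by nlinarith⟩
  rw [F.volume_proj_image huu hF hu0pos.ne']
  set t' : Fin (m + m) → ℝ := Fin.addCases (fun k => t (Fin.castAdd m k)) (fun _ => 0) with ht'
  have hsub : ob u '' plate m r t ⊆ (fun w => w - t') ⁻¹' {w : Fin (m + m) → ℝ | ∀ k : Fin m,
      |w (Fin.castAdd m k)| + |w (Fin.natAdd m k)| ≤ r} := by
    rintro _ ⟨x, ⟨h0, hk⟩, rfl⟩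
    intro k
    have := hk k
    simp only [ob, h0, zero_div, zero_mul, sub_zero, Pi.sub_apply, ht', Fin.addCases_left,
      Fin.addCases_right]
    exact this
  have hvol : volume (ob u '' plate m r t) ≤ ENNReal.ofReal ((2 * r ^ 2) ^ m) := by
    refine (measure_mono hsub).trans ?_
    simp only [sub_eq_add_neg]
    rw [measure_preimage_add_right, diamond_volume m r hr]
  calc ENNReal.ofReal |u 0| * volume (ob u '' plate m r t)
      ≤ ENNReal.ofReal 1 * ENNReal.ofReal ((2 * r ^ 2) ^ m) := by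
        gcongr
    _ = ENNReal.ofReal ((2 * r ^ 2) ^ m) := by rw [ENNReal.ofReal_one, one_mul]

/-- The grid of tubes covers the join. -/
theorem join_covering (m : ℕ) {L : ℝ} (hL : 0 < L) {M : ℕ} (hM : 1 ≤ M) :
    ∃ C : CylinderCovering (join m L), (∀ i, IsCompact (C.base i) ∧ Convex ℝ (C.base i)) ∧
      C.totalArea ≤ ((((M : ℝ) + 2) ^ 2 + 1) / (4 * (M : ℝ) ^ 2)) ^ m := by
  obtain ⟨T, hT, hcov⟩ := grid_cover m M hM
  have hMpos : (0 : ℝ) < M := by exact_mod_cast hM
  set r : ℝ := 1 / (2 * (M : ℝ)) with hr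
  have hr0 : 0 ≤ r := by positivity
  have hr2 : (2 * r ^ 2) ^ m = (1 / (2 * (M : ℝ) ^ 2)) ^ m := by
    congr 1
    rw [hr]
    field_simp
  choose F hF hvol using fun t : Fin (m + m) → ℝ => exists_tube (m := m) hL hr0 t
  have hcomp : ∀ t, IsCompact ((F t).proj '' plate m r t) := fun t =>
    (isCompact_plate r t).image (F t).continuous_proj
  have hconv : ∀ t, Convex ℝ ((F t).proj '' plate m r t) := fun t =>
    (F t).convex_image (convex_plate r t)
  set g : Fin T.card → (Fin (m + m) → ℝ) := fun i => (T.equivFin.symm i : Fin (m + m) → ℝ) with hg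
  refine ⟨⟨T.card, fun i => F (g i), fun i => (F (g i)).proj '' plate m r (g i),
    fun i => (hcomp _).isClosed.measurableSet.nullMeasurableSet,
    fun i => (hcomp _).measure_lt_top.ne, ?_⟩, fun i => ⟨hcomp _, hconv _⟩, ?_⟩
  · intro x hx
    obtain ⟨hs0, hs1⟩ := join_bound hL hx
    obtain ⟨-, h3, h4⟩ := hx
    obtain ⟨t, ht, hk⟩ := hcov (x 0 / L) ⟨hs0, hs1⟩ (fun j => x j.succ) h3 h4
    rw [mem_iUnion]
    refine ⟨T.equivFin ⟨t, ht⟩, ?_⟩
    have hgt : g (T.equivFin ⟨t, ht⟩) = t := by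
      rw [hg]
      simp
    change (F (g (T.equivFin ⟨t, ht⟩))).proj x ∈
      (F (g (T.equivFin ⟨t, ht⟩))).proj '' plate m r (g (T.equivFin ⟨t, ht⟩))
    rw [hgt]
    refine ⟨x - (x 0 / L) • chord m L t, ⟨?_, fun k => ?_⟩, ?_⟩
    · simp only [Pi.sub_apply, Pi.smul_apply, smul_eq_mul, chord_zero]
      field_simp
      ring
    · have hk' := hk k
      simp only [Pi.sub_apply, Pi.smul_apply, smul_eq_mul, chord_left, chord_right]
      have e1 : x (Fin.castAdd m k).succ - x 0 / L * -t (Fin.castAdd m k) - t (Fin.castAdd m k) =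
          x (Fin.castAdd m k).succ - (1 - x 0 / L) * t (Fin.castAdd m k) := by ring
      rw [e1]
      exact hk'
    · ext i
      simp only [Frame.proj, dotProduct_sub, dotProduct_smul, hF t i, smul_zero, sub_zero]
  · unfold CylinderCovering.totalArea
    have h1 : ∀ i : Fin T.card, (volume ((F (g i)).proj '' plate m r (g i))).toReal ≤
        (1 / (2 * (M : ℝ) ^ 2)) ^ m := by
      intro i
      rw [← hr2]
      exact ENNReal.toReal_le_of_le_ofReal (by positivity) (hvol (g i))
    calc ∑ i : Fin T.card, (volume ((F (g i)).proj '' plate m r (g i))).toReal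
        ≤ ∑ i : Fin T.card, (1 / (2 * (M : ℝ) ^ 2)) ^ m := Finset.sum_le_sum fun i _ => h1 i
      _ = (T.card : ℝ) * (1 / (2 * (M : ℝ) ^ 2)) ^ m := by simp
      _ ≤ _ := hT

/-- Good dimensions and ratios: some convex body of dimension `d + 1` has a covering by cylinders
with compact convex bases of total base volume less than `t` times the least shadow. -/
def Good (d : ℕ) (t : ℝ) : Prop :=
  ∃ K : Set (Fin (d + 1) → ℝ), IsConvexBody K ∧ ∃ C : CylinderCovering K,
    (∀ i, IsCompact (C.base i) ∧ Convex ℝ (C.base i)) ∧ C.totalArea < t * Amin K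

theorem good_join (hm : 1 ≤ m) {t : ℝ} (ht : (Nat.centralBinom m : ℝ) / 4 ^ m < t) :
    Good (m + m) t := by
  have hcb : (0 : ℝ) < Nat.centralBinom m := by exact_mod_cast Nat.centralBinom_pos m
  have htpos : 0 < t := lt_of_le_of_lt (by positivity) ht
  -- choose `θ`
  have h4 : ((1 : ℝ) / 4) ^ m < t / Nat.centralBinom m := by
    rw [lt_div_iff₀ hcb]
    calc ((1 : ℝ) / 4) ^ m * Nat.centralBinom m = (Nat.centralBinom m : ℝ) / 4 ^ m := by
          rw [one_div, inv_pow]; field_simp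
      _ < t := ht
  obtain ⟨θ, hθ1, hθ2, hθ0⟩ : ∃ θ : ℝ, θ < 1 ∧ ((1 : ℝ) / 4) ^ m < t * (θ / Nat.centralBinom m) ∧
      0 < θ := by
    have hlim : Tendsto (fun θ : ℝ => t * (θ / Nat.centralBinom m)) (𝓝[<] 1)
        (𝓝 (t * (1 / Nat.centralBinom m))) := by
      have : Continuous fun θ : ℝ => t * (θ / Nat.centralBinom m) := by fun_prop
      exact (this.tendsto 1).mono_left nhdsWithin_le_nhds
    have h5 : ((1 : ℝ) / 4) ^ m < t * (1 / Nat.centralBinom m) := by
      rw [mul_one_div]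
      exact h4
    have h6 := hlim.eventually (lt_mem_nhds h5)
    have h7 : ∀ᶠ θ : ℝ in 𝓝[<] 1, 0 < θ :=
      nhdsWithin_le_nhds (lt_mem_nhds one_pos)
    obtain ⟨θ, ⟨h8, h9⟩, h10⟩ := ((h6.and h7).and self_mem_nhdsWithin).exists
    exact ⟨θ, h10, h8, h9⟩
  -- choose `M`
  have hlimM : Tendsto (fun M : ℕ => ((((M : ℝ) + 2) ^ 2 + 1) / (4 * (M : ℝ) ^ 2)) ^ m) atTop
      (𝓝 (((1 : ℝ) / 4) ^ m)) := by
    refine Tendsto.pow ?_ m
    have h1 : Tendsto (fun M : ℕ => (1 : ℝ) / M) atTop (𝓝 0) := tendsto_one_div_atTop_nhds_zero_nat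
    have h2 : Tendsto (fun M : ℕ => ((1 + 2 * ((1 : ℝ) / M)) ^ 2 + ((1 : ℝ) / M) ^ 2) / 4) atTop
        (𝓝 (((1 + 2 * 0) ^ 2 + 0 ^ 2) / 4)) :=
      (((h1.const_mul 2).const_add 1).pow 2 |>.add (h1.pow 2)).div_const 4
    have h3 : (((1 : ℝ) + 2 * 0) ^ 2 + 0 ^ 2) / 4 = 1 / 4 := by norm_num
    rw [h3] at h2
    refine h2.congr' ?_
    filter_upwards [eventually_ge_atTop 1] with M hM
    have hMpos : (0 : ℝ) < M := by exact_mod_cast hM
    field_simp
  obtain ⟨M, hM1, hM2⟩ := ((hlimM.eventually (gt_mem_nhds hθ2)).and (eventually_ge_atTop 1)).exists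
  obtain ⟨L, hL, hsh⟩ := join_shadow_ge hm hθ0 hθ1
  obtain ⟨C, hC, hA⟩ := join_covering m hL hM2
  refine ⟨join m L, isConvexBody_join m hL, C, hC, ?_⟩
  have := nonempty_frame (m + m)
  have hAmin : θ / Nat.centralBinom m ≤ Amin (join m L) := le_ciInf hsh
  calc C.totalArea ≤ _ := hA
    _ < t * (θ / Nat.centralBinom m) := hM1
    _ ≤ t * Amin (join m L) := mul_le_mul_of_nonneg_left hAmin htpos.le

end Vale.Agent.P243.EveryDim
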