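import Vale.Agent.P243.Plain

open MeasureTheory
open scoped ENNReal

namespace Vale.Agent.P243.EveryDim

/-- An orthonormal family of `d` vectors of Euclidean space `Fin (d + 1) → ℝ` of dimension
`d + 1`. It spans a hyperplane through the origin, and every such hyperplane arises in this way. -/
structure Frame (d : ℕ) where
  e : Fin d → Fin (d + 1) → ℝ
  orthonormal : ∀ i j, e i ⬝ᵥ e j = if i = j then 1 else 0

/-- Orthogonal projection onto the hyperplane of the frame, in its orthonormal coordinates. -/
def Frame.proj {d : ℕ} (F : Frame d) (x : Fin (d + 1) → ℝ) : Fin d → ℝ := fun i => F.e i ⬝ᵥ x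

/-- The cylinder over the set `B`: all points of space that project into `B`. -/
def Frame.cylinder {d : ℕ} (F : Frame d) (B : Set (Fin d → ℝ)) : Set (Fin (d + 1) → ℝ) :=
  {x | F.proj x ∈ B}

/-- The `d`-dimensional volume of the orthogonal projection of `K` onto the hyperplane of the
frame. -/
noncomputable def Frame.shadow {d : ℕ} (F : Frame d) (K : Set (Fin (d + 1) → ℝ)) : ℝ :=
  (volume (F.proj '' K)).toReal

/-- A convex body: a compact convex set with nonempty interior. -/
def IsConvexBody {d : ℕ} (K : Set (Fin (d + 1) → ℝ)) : Prop :=
  IsCompact K ∧ Convex ℝ K ∧ (interior K).Nonempty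

/-- The smallest volume of an orthogonal projection of `K` onto a hyperplane. -/
noncomputable def Amin {d : ℕ} (K : Set (Fin (d + 1) → ℝ)) : ℝ := ⨅ F : Frame d, F.shadow K

/-- A finite covering of `K` by cylinders over Lebesgue measurable bases of finite `d`-dimensional
volume. -/
structure CylinderCovering {d : ℕ} (K : Set (Fin (d + 1) → ℝ)) where
  m : ℕ
  frame : Fin m → Frame d
  base : Fin m → Set (Fin d → ℝ)
  measurable_base : ∀ i, NullMeasurableSet (base i) volume
  finite_volume : ∀ i, volume (base i) ≠ ∞
  covers : K ⊆ ⋃ i, (frame i).cylinder (base i)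

/-- The total base volume of a covering. -/
noncomputable def CylinderCovering.totalArea {d : ℕ} {K : Set (Fin (d + 1) → ℝ)}
    (C : CylinderCovering K) : ℝ := ∑ i, (volume (C.base i)).toReal

/-- The directionwise relative area of a covering. -/
noncomputable def CylinderCovering.relArea {d : ℕ} {K : Set (Fin (d + 1) → ℝ)}
    (C : CylinderCovering K) : ℝ := ∑ i, (volume (C.base i)).toReal / (C.frame i).shadow K

/-- The infimum of the total base volume divided by `Amin`, over all convex bodies of dimension
`d + 1` and all their coverings. -/
noncomputable def c (d : ℕ) : ℝ :=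
  sInf {r : ℝ | ∃ K : Set (Fin (d + 1) → ℝ), IsConvexBody K ∧
    ∃ C : CylinderCovering K, r = C.totalArea / Amin K}

/-- The infimum of the directionwise relative area, over all convex bodies of dimension `d + 1`
and all their coverings. -/
noncomputable def r (d : ℕ) : ℝ :=
  sInf {r : ℝ | ∃ K : Set (Fin (d + 1) → ℝ), IsConvexBody K ∧
    ∃ C : CylinderCovering K, r = C.relArea}

end Vale.Agent.P243.EveryDim
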