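import Vale.Agent.P243.H324.Defs

open MeasureTheory Set
open scoped ENNReal

namespace Vale.Agent.P243.EveryDim

variable {d : ℕ}

theorem Frame.proj_eq_mulVec (F : Frame d) (x : Fin (d + 1) → ℝ) :
    F.proj x = (Matrix.of F.e).mulVec x := rfl

theorem Frame.mul_transpose (F : Frame d) : Matrix.of F.e * (Matrix.of F.e).transpose = 1 := by
  ext i j
  rw [Matrix.mul_apply', Matrix.one_apply]
  exact F.orthonormal i j

/-- I1 -/
theorem Frame.exists_normal (F : Frame d) :
    ∃ u : Fin (d + 1) → ℝ, u ⬝ᵥ u = 1 ∧ ∀ i, F.e i ⬝ᵥ u = 0 := by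
  have hk : LinearMap.ker (Matrix.of F.e).mulVecLin ≠ ⊥ :=
    LinearMap.ker_ne_bot_of_finrank_lt (by simp)
  obtain ⟨x, hx, hx0⟩ := (Submodule.ne_bot_iff _).1 hk
  have hxx : 0 < x ⬝ᵥ x := by
    have h1 : 0 ≤ x ⬝ᵥ x := Finset.sum_nonneg fun i _ => mul_self_nonneg _
    have h2 : x ⬝ᵥ x ≠ 0 := by
      intro h
      apply hx0
      have h3 := (Finset.sum_eq_zero_iff_of_nonneg fun i _ => mul_self_nonneg (x i)).1 h
      ext i
      exact mul_self_eq_zero.1 (h3 i (Finset.mem_univ i))
    exact lt_of_le_of_ne h1 (Ne.symm h2)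
  refine ⟨(Real.sqrt (x ⬝ᵥ x))⁻¹ • x, ?_, fun i => ?_⟩
  · rw [smul_dotProduct, dotProduct_smul, smul_eq_mul, smul_eq_mul, ← mul_assoc, ← mul_inv,
      Real.mul_self_sqrt hxx.le, inv_mul_cancel₀ hxx.ne']
  · have := congrFun (LinearMap.mem_ker.1 hx) i
    simp only [Matrix.mulVecLin_apply, Pi.zero_apply] at this
    rw [dotProduct_smul]
    have h3 : F.e i ⬝ᵥ x = 0 := this
    rw [h3, smul_zero]

/-- the square matrix with rows `u, e` -/
def Frame.full (F : Frame d) (u : Fin (d + 1) → ℝ) : Matrix (Fin (d + 1)) (Fin (d + 1)) ℝ :=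
  Matrix.of (Fin.cons u F.e)

theorem Frame.full_mul_transpose (F : Frame d) {u : Fin (d + 1) → ℝ} (hu : u ⬝ᵥ u = 1)
    (h : ∀ i, F.e i ⬝ᵥ u = 0) : F.full u * (F.full u).transpose = 1 := by
  ext i j
  rw [Matrix.mul_apply']
  have hrow : ∀ i, (fun k => (F.full u) i k) = (Fin.cons u F.e : Fin (d + 1) → Fin (d + 1) → ℝ) i :=
    fun i => rfl
  change ((Fin.cons u F.e : Fin (d + 1) → Fin (d + 1) → ℝ) i) ⬝ᵥ
    ((Fin.cons u F.e : Fin (d + 1) → Fin (d + 1) → ℝ) j) = _
  refine Fin.cases ?_ (fun i => ?_) i <;> refine Fin.cases ?_ (fun j => ?_) j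
  · simpa using hu
  · simp only [Fin.cons_zero, Fin.cons_succ]
    rw [dotProduct_comm, h j, Matrix.one_apply_ne (Fin.succ_ne_zero j).symm]
  · simp only [Fin.cons_zero, Fin.cons_succ]
    rw [h i, Matrix.one_apply_ne (Fin.succ_ne_zero i)]
  · simp only [Fin.cons_succ]
    rw [F.orthonormal i j, Matrix.one_apply]
    simp

theorem Frame.transpose_mul_full (F : Frame d) {u : Fin (d + 1) → ℝ} (hu : u ⬝ᵥ u = 1)
    (h : ∀ i, F.e i ⬝ᵥ u = 0) : (F.full u).transpose * F.full u = 1 :=
  mul_eq_one_comm.1 (F.full_mul_transpose hu h)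

theorem Frame.abs_det_full (F : Frame d) {u : Fin (d + 1) → ℝ} (hu : u ⬝ᵥ u = 1)
    (h : ∀ i, F.e i ⬝ᵥ u = 0) : |(F.full u).det| = 1 := by
  have h1 := congrArg Matrix.det (F.full_mul_transpose hu h)
  rw [Matrix.det_mul, Matrix.det_transpose, Matrix.det_one] at h1
  have h2 : |(F.full u).det| * |(F.full u).det| = 1 := by rw [← abs_mul, h1, abs_one]
  nlinarith [abs_nonneg (F.full u).det]

/-- column relations -/
theorem Frame.transpose_mul (F : Frame d) {u : Fin (d + 1) → ℝ} (hu : u ⬝ᵥ u = 1)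
    (h : ∀ i, F.e i ⬝ᵥ u = 0) :
    (Matrix.of F.e).transpose * Matrix.of F.e = 1 - Matrix.vecMulVec u u := by
  have h1 := F.transpose_mul_full hu h
  ext k l
  have h2 := congrFun (congrFun h1 k) l
  rw [Matrix.mul_apply, Fin.sum_univ_succ] at h2
  simp only [Frame.full, Matrix.transpose_apply, Matrix.of_apply, Fin.cons_zero,
    Fin.cons_succ] at h2
  rw [Matrix.mul_apply, Matrix.sub_apply, Matrix.vecMulVec_apply, ← h2]
  simp only [Matrix.transpose_apply, Matrix.of_apply]
  ring

theorem volume_mulVec_image {n : ℕ} (N : Matrix (Fin n) (Fin n) ℝ) (S : Set (Fin n → ℝ)) :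
    volume ((fun x => N.mulVec x) '' S) = ENNReal.ofReal |N.det| * volume S := by
  have := Measure.addHaar_image_linearMap (volume : Measure (Fin n → ℝ)) (Matrix.toLin' N) S
  rw [LinearMap.det_toLin'] at this
  exact this

/-- Oblique projection along `u` onto the hyperplane `x 0 = 0`. -/
noncomputable def ob (u x : Fin (d + 1) → ℝ) : Fin d → ℝ :=
  fun i => x i.succ - x 0 / u 0 * u i.succ

theorem Frame.proj_eq_ob (F : Frame d) {u : Fin (d + 1) → ℝ}
    (h : ∀ i, F.e i ⬝ᵥ u = 0) (h0 : u 0 ≠ 0) (x : Fin (d + 1) → ℝ) :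
    F.proj x = (Matrix.of fun i j => F.e i (Fin.succ j)).mulVec (ob u x) := by
  ext i
  have h1 : F.e i ⬝ᵥ x = F.e i ⬝ᵥ (x - (x 0 / u 0) • u) := by
    rw [dotProduct_sub, dotProduct_smul, h i, smul_zero, sub_zero]
  change F.e i ⬝ᵥ x = _
  rw [h1]
  simp only [dotProduct, Matrix.mulVec, Fin.sum_univ_succ, Pi.sub_apply, Pi.smul_apply,
    smul_eq_mul, Matrix.of_apply, ob]
  rw [div_mul_cancel₀ _ h0, sub_self, mul_zero, zero_add]

/-- I2 -/
theorem Frame.volume_proj_image (F : Frame d) {u : Fin (d + 1) → ℝ} (hu : u ⬝ᵥ u = 1)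
    (h : ∀ i, F.e i ⬝ᵥ u = 0) (h0 : u 0 ≠ 0) (S : Set (Fin (d + 1) → ℝ)) :
    volume (F.proj '' S) = ENNReal.ofReal |u 0| * volume (ob u '' S) := by
  set N : Matrix (Fin d) (Fin d) ℝ := Matrix.of fun i j => F.e i (Fin.succ j) with hN
  have h1 : F.proj '' S = (fun x => N.mulVec x) '' (ob u '' S) := by
    rw [image_image]
    exact image_congr fun x _ => F.proj_eq_ob h h0 x
  have h2 : N.transpose * N = 1 - Matrix.vecMulVec (Fin.tail u) (Fin.tail u) := by
    ext k l
    have h3 := congrFun (congrFun (F.transpose_mul hu h) k.succ) l.succ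
    rw [Matrix.mul_apply, Matrix.sub_apply, Matrix.vecMulVec_apply] at h3 ⊢
    rw [Matrix.one_apply] at h3 ⊢
    simp only [Matrix.transpose_apply, Matrix.of_apply, Fin.succ_inj] at h3
    simp only [hN, Matrix.transpose_apply, Matrix.of_apply, Fin.tail]
    exact h3
  have h4 : N.det * N.det = u 0 * u 0 := by
    have h5 := congrArg Matrix.det h2
    rw [Matrix.det_mul, Matrix.det_transpose] at h5
    rw [h5]
    have h6 : (1 - Matrix.vecMulVec (Fin.tail u) (Fin.tail u) : Matrix (Fin d) (Fin d) ℝ) =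
        1 + Matrix.replicateCol Unit (-Fin.tail u) * Matrix.replicateRow Unit (Fin.tail u) := by
      ext k l
      simp [Matrix.vecMulVec_apply, Matrix.mul_apply, sub_eq_add_neg]
    rw [h6, Matrix.det_one_add_replicateCol_mul_replicateRow]
    have h7 : u ⬝ᵥ u = u 0 * u 0 + Fin.tail u ⬝ᵥ Fin.tail u := by
      simp only [dotProduct, Fin.sum_univ_succ, Fin.tail]
    rw [dotProduct_neg]
    linarith
  have h8 : |N.det| = |u 0| := by
    have := (abs_eq_abs (a := N.det) (b := u 0)).2 (mul_self_eq_mul_self_iff.1 h4)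
    exact this
  rw [h1, volume_mulVec_image, h8]

/-- I4 -/
theorem volume_proj_congr (F G : Frame d) {u : Fin (d + 1) → ℝ} (hu : u ⬝ᵥ u = 1)
    (hF : ∀ i, F.e i ⬝ᵥ u = 0) (hG : ∀ i, G.e i ⬝ᵥ u = 0) (S : Set (Fin (d + 1) → ℝ)) :
    volume (F.proj '' S) = volume (G.proj '' S) := by
  set R : Matrix (Fin d) (Fin d) ℝ := Matrix.of F.e * (Matrix.of G.e).transpose with hR
  have hFu : Matrix.of F.e * Matrix.vecMulVec u u = 0 := by
    ext i k
    rw [Matrix.mul_apply]
    simp only [Matrix.of_apply, Matrix.vecMulVec_apply, Matrix.zero_apply]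
    have : ∑ j, F.e i j * (u j * u k) = (F.e i ⬝ᵥ u) * u k := by
      simp only [dotProduct, Finset.sum_mul]
      exact Finset.sum_congr rfl fun j _ => by ring
    rw [this, hF i, zero_mul]
  have h1 : R * Matrix.of G.e = Matrix.of F.e := by
    rw [hR, Matrix.mul_assoc, G.transpose_mul hu hG, Matrix.mul_sub, Matrix.mul_one, hFu, sub_zero]
  have h2 : R * R.transpose = 1 := by
    rw [hR, Matrix.transpose_mul, Matrix.transpose_transpose, ← Matrix.mul_assoc, ← hR, h1,
      F.mul_transpose]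
  have h3 : |R.det| = 1 := by
    have h4 := congrArg Matrix.det h2
    rw [Matrix.det_mul, Matrix.det_transpose, Matrix.det_one] at h4
    have h5 : |R.det| * |R.det| = 1 := by rw [← abs_mul, h4, abs_one]
    nlinarith [abs_nonneg R.det]
  have h6 : F.proj '' S = (fun x => R.mulVec x) '' (G.proj '' S) := by
    rw [image_image]
    refine image_congr fun x _ => ?_
    rw [F.proj_eq_mulVec, G.proj_eq_mulVec, Matrix.mulVec_mulVec, h1]
  rw [h6, volume_mulVec_image, h3, ENNReal.ofReal_one, one_mul]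

/-- I3 -/
theorem exists_frame (u : Fin (d + 1) → ℝ) (hu : u ⬝ᵥ u = 1) :
    ∃ F : Frame d, ∀ i, F.e i ⬝ᵥ u = 0 := by
  have : Fact (Module.finrank ℝ (EuclideanSpace ℝ (Fin (d + 1))) = d + 1) := ⟨by simp⟩
  set v : EuclideanSpace ℝ (Fin (d + 1)) := WithLp.toLp 2 u with hv
  have hv0 : v ≠ 0 := by
    intro h
    have hu0 : u = 0 := by
      have := congrArg WithLp.ofLp h
      simpa [hv] using this
    rw [hu0] at hu
    simp at hu
  have hfr : Module.finrank ℝ (Submodule.span ℝ {v})ᗮ = d :=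
    Submodule.finrank_orthogonal_span_singleton hv0
  set b := (stdOrthonormalBasis ℝ (Submodule.span ℝ {v})ᗮ).reindex (finCongr hfr) with hb
  have hin : ∀ x y : EuclideanSpace ℝ (Fin (d + 1)),
      WithLp.ofLp x ⬝ᵥ WithLp.ofLp y = inner ℝ x y := by
    intro x y
    rw [EuclideanSpace.inner_eq_star_dotProduct, dotProduct_comm]
    simp
  refine ⟨⟨fun i => WithLp.ofLp (b i : EuclideanSpace ℝ (Fin (d + 1))), fun i j => ?_⟩,
    fun i => ?_⟩
  · rw [hin, ← Submodule.coe_inner]
    exact orthonormal_iff_ite.1 b.orthonormal i j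
  · change WithLp.ofLp (b i : EuclideanSpace ℝ (Fin (d + 1))) ⬝ᵥ u = 0
    have h1 := hin (b i : EuclideanSpace ℝ (Fin (d + 1))) v
    have h2 : inner ℝ v (b i : EuclideanSpace ℝ (Fin (d + 1))) = 0 :=
      (Submodule.mem_orthogonal_singleton_iff_inner_right.1 (b i).2)
    rw [real_inner_comm] at h2
    rw [h2] at h1
    exact h1

/-- I5 -/
theorem Frame.volume_le (F : Frame d) {u : Fin (d + 1) → ℝ} (hu : u ⬝ᵥ u = 1)
    (h : ∀ i, F.e i ⬝ᵥ u = 0) {K : Set (Fin (d + 1) → ℝ)} (hK : IsCompact K) {l : ℝ}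
    (hl : ∀ x ∈ K, ∀ y ∈ K, F.proj x = F.proj y → |u ⬝ᵥ (x - y)| ≤ l) :
    volume K ≤ ENNReal.ofReal l * volume (F.proj '' K) := by
  have hcp : Continuous F.proj := by
    have : F.proj = fun x => (Matrix.of F.e).mulVec x := rfl
    rw [this]
    exact Continuous.matrix_mulVec continuous_const continuous_id
  have h1 : volume ((fun x => (F.full u).mulVec x) '' K) = volume K := by
    rw [volume_mulVec_image, F.abs_det_full hu h, ENNReal.ofReal_one, one_mul]
  have hcM : Continuous fun x => (F.full u).mulVec x :=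
    Continuous.matrix_mulVec continuous_const continuous_id
  have hcK : IsCompact ((fun x => (F.full u).mulVec x) '' K) := hK.image hcM
  set S := (fun x => (F.full u).mulVec x) '' K with hS
  have hSm : MeasurableSet S := hcK.isClosed.measurableSet
  have hM0 : ∀ x, (F.full u).mulVec x 0 = u ⬝ᵥ x := fun x => rfl
  have hMs : ∀ x i, (F.full u).mulVec x (Fin.succ i) = F.proj x i := fun x i => rfl
  set e := MeasurableEquiv.piFinSuccAbove (fun _ : Fin (d + 1) => ℝ) 0 with he
  have hmp : MeasurePreserving e := volume_preserving_piFinSuccAbove (fun _ : Fin (d + 1) => ℝ) 0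
  have h2 : volume S = (volume : Measure (ℝ × (Fin d → ℝ))) (e.symm ⁻¹' S) := by
    rw [(hmp.symm e).measure_preimage hSm.nullMeasurableSet]
  have hS'm : MeasurableSet (e.symm ⁻¹' S) := e.symm.measurable hSm
  rw [← h1, h2, Measure.volume_eq_prod, Measure.prod_apply_symm hS'm]
  have hTm : MeasurableSet (F.proj '' K) := (hK.image hcp).isClosed.measurableSet
  calc ∫⁻ y, volume ((fun t => (t, y)) ⁻¹' (e.symm ⁻¹' S))
      ≤ ∫⁻ y, (F.proj '' K).indicator (fun _ => ENNReal.ofReal l) y := by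
        refine lintegral_mono fun y => ?_
        have hmem : ∀ t, (t, y) ∈ e.symm ⁻¹' S → ∃ x ∈ K, F.proj x = y ∧ u ⬝ᵥ x = t := by
          rintro t ⟨x, hx, hxe⟩
          refine ⟨x, hx, ?_, ?_⟩
          · ext i
            have h3 := congrFun hxe (Fin.succ i)
            have h4 : e.symm (t, y) (Fin.succ i) = y i := by
              simp [he, MeasurableEquiv.piFinSuccAbove]
            rw [h4] at h3
            rw [← h3]
            exact (hMs x i).symm
          · have h3 := congrFun hxe 0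
            have h4 : e.symm (t, y) 0 = t := by
              simp [he, MeasurableEquiv.piFinSuccAbove]
            rw [h4] at h3
            rw [← h3]
            exact (hM0 x).symm
        by_cases hy : y ∈ F.proj '' K
        · rw [indicator_of_mem hy]
          refine (Real.volume_le_diam _).trans ?_
          refine Metric.ediam_le ?_
          intro s hs t ht
          obtain ⟨x, hx, hxy, hxs⟩ := hmem s hs
          obtain ⟨z, hz, hzy, hzt⟩ := hmem t ht
          have := hl x hx z hz (hxy.trans hzy.symm)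
          rw [dotProduct_sub, hxs, hzt] at this
          rw [edist_dist, Real.dist_eq]
          exact ENNReal.ofReal_le_ofReal this
        · rw [indicator_of_notMem hy]
          have : ((fun t => (t, y)) ⁻¹' (e.symm ⁻¹' S)) = ∅ := by
            ext t
            simp only [mem_preimage, mem_empty_iff_false, iff_false]
            intro ht
            obtain ⟨x, hx, hxy, -⟩ := hmem t ht
            exact hy ⟨x, hx, hxy⟩
          rw [this, measure_empty]
    _ = ENNReal.ofReal l * volume (F.proj '' K) := by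
        rw [lintegral_indicator hTm, lintegral_const, Measure.restrict_apply MeasurableSet.univ,
          univ_inter]

theorem Frame.continuous_proj (F : Frame d) : Continuous F.proj := by
  have : F.proj = fun x => (Matrix.of F.e).mulVec x := rfl
  rw [this]
  exact Continuous.matrix_mulVec continuous_const continuous_id

/-- I8 -/
theorem Frame.volume_proj_ne_top (F : Frame d) {K : Set (Fin (d + 1) → ℝ)} (hK : IsCompact K) :
    volume (F.proj '' K) ≠ ∞ := (hK.image F.continuous_proj).measure_lt_top.ne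

theorem Frame.shadow_nonneg (F : Frame d) (K : Set (Fin (d + 1) → ℝ)) : 0 ≤ F.shadow K :=
  ENNReal.toReal_nonneg

/-- I7 -/
theorem Amin_le (F : Frame d) (K : Set (Fin (d + 1) → ℝ)) : Amin K ≤ F.shadow K :=
  ciInf_le ⟨0, by rintro _ ⟨G, rfl⟩; exact G.shadow_nonneg K⟩ F

theorem nonempty_frame (d : ℕ) : Nonempty (Frame d) := by
  obtain ⟨F, -⟩ := exists_frame (d := d) (Pi.single 0 1) (by simp)
  exact ⟨F⟩

theorem Amin_nonneg (K : Set (Fin (d + 1) → ℝ)) : 0 ≤ Amin K :=
  Real.iInf_nonneg fun F => F.shadow_nonneg K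

/-- I6 -/
theorem Amin_pos {K : Set (Fin (d + 1) → ℝ)} (hK : IsConvexBody K) : 0 < Amin K := by
  have := nonempty_frame d
  obtain ⟨hKc, -, hKi⟩ := hK
  have hvol : 0 < volume K :=
    lt_of_lt_of_le (isOpen_interior.measure_pos volume hKi) (measure_mono interior_subset)
  have hfin : volume K ≠ ∞ := hKc.measure_lt_top.ne
  obtain ⟨R, hR⟩ := hKc.isBounded.exists_norm_le
  -- for unit `u`, `|u ⬝ (x - y)| ≤ (d+1) * 2R`
  have hR0 : 0 ≤ R := by
    obtain ⟨x, hx⟩ := hKi
    exact (norm_nonneg x).trans (hR x (interior_subset hx))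
  set l : ℝ := (d + 1 : ℕ) * (2 * R) + 1 with hl
  have hlpos : 0 < l := by positivity
  have key : ∀ F : Frame d, (volume K).toReal / l ≤ F.shadow K := by
    intro F
    obtain ⟨u, hu, h⟩ := F.exists_normal
    have hui : ∀ i, |u i| ≤ 1 := by
      intro i
      have h1 : u i * u i ≤ u ⬝ᵥ u :=
        Finset.single_le_sum (f := fun i => u i * u i) (fun i _ => mul_self_nonneg _)
          (Finset.mem_univ i)
      rw [hu] at h1
      exact abs_le.2 ⟨by nlinarith, by nlinarith⟩
    have h2 : volume K ≤ ENNReal.ofReal l * volume (F.proj '' K) := by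
      refine F.volume_le hu h hKc ?_
      intro x hx y hy _
      have h3 : |u ⬝ᵥ (x - y)| ≤ ∑ i : Fin (d + 1), |u i * (x - y) i| :=
        Finset.abs_sum_le_sum_abs _ _
      have h4 : ∑ i : Fin (d + 1), |u i * (x - y) i| ≤ ∑ i : Fin (d + 1), 2 * R := by
        refine Finset.sum_le_sum fun i _ => ?_
        rw [abs_mul]
        have h5 : |(x - y) i| ≤ 2 * R := by
          have h6 : ‖(x - y) i‖ ≤ ‖x - y‖ := norm_le_pi_norm _ i
          have h7 : ‖x - y‖ ≤ ‖x‖ + ‖y‖ := norm_sub_le _ _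
          have := hR x hx
          have := hR y hy
          rw [Real.norm_eq_abs] at h6
          linarith
        calc |u i| * |(x - y) i| ≤ 1 * (2 * R) :=
              mul_le_mul (hui i) h5 (abs_nonneg _) zero_le_one
          _ = 2 * R := one_mul _
      have h8 : ∑ i : Fin (d + 1), 2 * R = (d + 1 : ℕ) * (2 * R) := by simp
      rw [hl]
      linarith
    have h9 := ENNReal.toReal_mono
      (ENNReal.mul_ne_top ENNReal.ofReal_ne_top (F.volume_proj_ne_top hKc)) h2
    rw [ENNReal.toReal_mul, ENNReal.toReal_ofReal hlpos.le] at h9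
    rw [div_le_iff₀ hlpos, mul_comm]
    exact h9
  have h10 : (volume K).toReal / l ≤ Amin K := le_ciInf key
  exact lt_of_lt_of_le (div_pos (ENNReal.toReal_pos hvol.ne' hfin) hlpos) h10

end Vale.Agent.P243.EveryDim
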