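import Vale.Agent.P243.H324.Geom
import Vale.Agent.P243.H324.BlockA
import Vale.Agent.P243.H324.BlockB

open MeasureTheory Set
open scoped ENNReal

namespace Vale.Agent.P243.EveryDim

variable {m : ℕ}

/-- The join of two cubes of dimension `m`, of length `L` in the direction of coordinate `0`. -/
def join (m : ℕ) (L : ℝ) : Set (Fin (m + m + 1) → ℝ) :=
  {x | (0 ≤ x 0 ∧ x 0 ≤ L) ∧
    (∀ k : Fin m, 0 ≤ x (Fin.castAdd m k).succ ∧ x (Fin.castAdd m k).succ ≤ 1 - x 0 / L) ∧
    (∀ k : Fin m, 0 ≤ x (Fin.natAdd m k).succ ∧ x (Fin.natAdd m k).succ ≤ x 0 / L)}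

theorem isClosed_join (m : ℕ) (L : ℝ) : IsClosed (join m L) := by
  have hc : Continuous fun x : Fin (m + m + 1) → ℝ => x 0 / L := by
    have h0 : Continuous fun x : Fin (m + m + 1) → ℝ => x 0 := continuous_apply 0
    exact h0.div_const L
  have h1 : IsClosed {x : Fin (m + m + 1) → ℝ | 0 ≤ x 0 ∧ x 0 ≤ L} :=
    (isClosed_le continuous_const (continuous_apply 0)).inter
      (isClosed_le (continuous_apply 0) continuous_const)
  have h2 : IsClosed {x : Fin (m + m + 1) → ℝ | ∀ k : Fin m,
      0 ≤ x (Fin.castAdd m k).succ ∧ x (Fin.castAdd m k).succ ≤ 1 - x 0 / L} := by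
    rw [ofPred_forall]
    refine isClosed_iInter fun k => ?_
    exact (isClosed_le continuous_const (continuous_apply _)).inter
      (isClosed_le (continuous_apply _) (continuous_const.sub hc))
  have h3 : IsClosed {x : Fin (m + m + 1) → ℝ | ∀ k : Fin m,
      0 ≤ x (Fin.natAdd m k).succ ∧ x (Fin.natAdd m k).succ ≤ x 0 / L} := by
    rw [ofPred_forall]
    refine isClosed_iInter fun k => ?_
    exact (isClosed_le continuous_const (continuous_apply _)).inter
      (isClosed_le (continuous_apply _) hc)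
  exact h1.inter (h2.inter h3)

theorem join_bound {L : ℝ} (hL : 0 < L) {x : Fin (m + m + 1) → ℝ} (hx : x ∈ join m L) :
    0 ≤ x 0 / L ∧ x 0 / L ≤ 1 := by
  obtain ⟨⟨h1, h2⟩, -, -⟩ := hx
  exact ⟨div_nonneg h1 hL.le, (div_le_one hL).2 h2⟩

theorem isConvexBody_join (m : ℕ) {L : ℝ} (hL : 0 < L) : IsConvexBody (join m L) := by
  refine ⟨?_, ?_, ?_⟩
  · refine IsCompact.of_isClosed_subset
      (isCompact_Icc (a := (0 : Fin (m + m + 1) → ℝ)) (b := fun _ => L + 1)) (isClosed_join m L) ?_
    intro x hx
    obtain ⟨hs0, hs1⟩ := join_bound hL hx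
    obtain ⟨⟨h1, h2⟩, h3, h4⟩ := hx
    constructor
    · intro i
      refine Fin.cases h1 (fun j => ?_) i
      refine Fin.addCases (fun k => ?_) (fun k => ?_) j
      · exact (h3 k).1
      · exact (h4 k).1
    · intro i
      refine Fin.cases ?_ (fun j => ?_) i
      · simp only []
        linarith
      · refine Fin.addCases (fun k => ?_) (fun k => ?_) j
        · have := (h3 k).2
          simp only []
          linarith
        · have := (h4 k).2
          simp only []
          linarith
  · intro x hx y hy a b ha hb hab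
    obtain ⟨⟨h1, h2⟩, h3, h4⟩ := hx
    obtain ⟨⟨g1, g2⟩, g3, g4⟩ := hy
    have hb' : b = 1 - a := by linarith
    have hdiv : (a • x + b • y) 0 / L = a * (x 0 / L) + b * (y 0 / L) := by
      simp only [Pi.add_apply, Pi.smul_apply, smul_eq_mul]
      ring
    refine ⟨⟨?_, ?_⟩, fun k => ⟨?_, ?_⟩, fun k => ⟨?_, ?_⟩⟩
    · simp only [Pi.add_apply, Pi.smul_apply, smul_eq_mul]
      positivity
    · simp only [Pi.add_apply, Pi.smul_apply, smul_eq_mul]
      have e1 := mul_le_mul_of_nonneg_left h2 ha
      have e2 := mul_le_mul_of_nonneg_left g2 hb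
      have e3 : a * L + b * L = L := by rw [← add_mul, hab, one_mul]
      linarith
    · simp only [Pi.add_apply, Pi.smul_apply, smul_eq_mul]
      have e1 := mul_nonneg ha (h3 k).1
      have e2 := mul_nonneg hb (g3 k).1
      linarith
    · rw [hdiv]
      simp only [Pi.add_apply, Pi.smul_apply, smul_eq_mul]
      have e1 := mul_le_mul_of_nonneg_left (h3 k).2 ha
      have e2 := mul_le_mul_of_nonneg_left (g3 k).2 hb
      nlinarith
    · simp only [Pi.add_apply, Pi.smul_apply, smul_eq_mul]
      have e1 := mul_nonneg ha (h4 k).1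
      have e2 := mul_nonneg hb (g4 k).1
      linarith
    · rw [hdiv]
      simp only [Pi.add_apply, Pi.smul_apply, smul_eq_mul]
      have e1 := mul_le_mul_of_nonneg_left (h4 k).2 ha
      have e2 := mul_le_mul_of_nonneg_left (g4 k).2 hb
      linarith
  · have ho : IsOpen (Set.pi univ (Fin.cons (Ioo (L / 4) (3 * L / 4)) (fun _ => Ioo 0 (1 / 4)) :
        Fin (m + m + 1) → Set ℝ)) := by
      refine isOpen_set_pi finite_univ fun i _ => ?_
      refine Fin.cases ?_ (fun j => ?_) i
      · exact isOpen_Ioo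
      · exact isOpen_Ioo
    have hsub : (Set.pi univ (Fin.cons (Ioo (L / 4) (3 * L / 4)) (fun _ => Ioo 0 (1 / 4)) :
        Fin (m + m + 1) → Set ℝ)) ⊆ join m L := by
      intro x hx
      have h0 : x 0 ∈ Ioo (L / 4) (3 * L / 4) := by simpa using hx 0 (mem_univ _)
      have hj : ∀ j : Fin (m + m), x j.succ ∈ Ioo (0 : ℝ) (1 / 4) := fun j => by
        simpa using hx j.succ (mem_univ _)
      have e1 : 1 / 4 ≤ x 0 / L := by
        rw [le_div_iff₀ hL]
        linarith [h0.1]
      have e2 : x 0 / L ≤ 3 / 4 := by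
        rw [div_le_iff₀ hL]
        linarith [h0.2]
      refine ⟨⟨by linarith [h0.1], by linarith [h0.2]⟩, fun k => ⟨(hj _).1.le, ?_⟩,
        fun k => ⟨(hj _).1.le, ?_⟩⟩
      · linarith [(hj (Fin.castAdd m k)).2]
      · linarith [(hj (Fin.natAdd m k)).2]
    refine ⟨Fin.cons (L / 2) (fun _ => 1 / 8), ?_⟩
    refine interior_maximal hsub ho ?_
    intro i _
    refine Fin.cases ?_ (fun j => ?_) i
    · simp only [Fin.cons_zero, mem_Ioo]
      constructor <;> linarith
    · simp only [Fin.cons_succ, mem_Ioo]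
      constructor <;> norm_num

/-- Two points with the same projection differ by a multiple of the normal. -/
theorem Frame.sub_eq {d : ℕ} (F : Frame d) {u : Fin (d + 1) → ℝ} (hu : u ⬝ᵥ u = 1)
    (h : ∀ i, F.e i ⬝ᵥ u = 0) {x y : Fin (d + 1) → ℝ} (hxy : F.proj x = F.proj y) :
    x - y = (u ⬝ᵥ (x - y)) • u := by
  have h1 : (F.full u).transpose.mulVec ((F.full u).mulVec (x - y)) = x - y := by
    rw [Matrix.mulVec_mulVec, F.transpose_mul_full hu h, Matrix.one_mulVec]
  have h2 : (F.full u).mulVec (x - y) = Fin.cons (u ⬝ᵥ (x - y)) 0 := by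
    ext i
    refine Fin.cases rfl (fun j => ?_) i
    have h3 := congrFun hxy j
    change F.e j ⬝ᵥ (x - y) = 0
    rw [dotProduct_sub]
    exact sub_eq_zero.2 h3
  rw [h2] at h1
  generalize u ⬝ᵥ (x - y) = t at h1 ⊢
  rw [← h1]
  ext k
  simp [Matrix.mulVec, dotProduct, Fin.sum_univ_succ, Frame.full, Matrix.transpose_apply]
  ring

theorem join_shadow_ge (hm : 1 ≤ m) {θ : ℝ} (hθ0 : 0 < θ) (hθ1 : θ < 1) :
    ∃ L : ℝ, 0 < L ∧ ∀ F : Frame (m + m), θ / Nat.centralBinom m ≤ F.shadow (join m L) := by
  have hmpos : (0 : ℝ) < m := by exact_mod_cast hm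
  set ε : ℝ := Real.sqrt ((1 - θ ^ 2) / (2 * m)) with hε
  have hθ2 : 0 < 1 - θ ^ 2 := by nlinarith
  have hεpos : 0 < ε := Real.sqrt_pos.2 (by positivity)
  have hεsq : ε ^ 2 * (2 * m) = 1 - θ ^ 2 := by
    rw [hε, Real.sq_sqrt (by positivity)]
    field_simp
  set c₀ : ℝ := θ / Nat.centralBinom m with hc0
  have hc0pos : 0 < c₀ := by
    have : (0 : ℝ) < Nat.centralBinom m := by exact_mod_cast Nat.centralBinom_pos m
    positivity
  set L : ℝ := c₀ / (2 * ε * (1 / 4) ^ (m + m)) with hL
  have hLpos : 0 < L := by positivity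
  refine ⟨L, hLpos, fun F => ?_⟩
  obtain ⟨u, hu, h⟩ := F.exists_normal
  have hJc : IsCompact (join m L) := (isConvexBody_join m hLpos).1
  have hfin := F.volume_proj_ne_top hJc
  by_cases hω : θ ≤ |u 0|
  · have h0 : u 0 ≠ 0 := by
      intro h0
      rw [h0, abs_zero] at hω
      linarith
    have h1 := F.volume_proj_image hu h h0 (join m L)
    have h2 := join_volume_ge m hm (fun k => -(L * u (Fin.castAdd m k).succ / u 0))
      (fun k => -(L * u (Fin.natAdd m k).succ / u 0))
    have h3 : {w : Fin (m + m) → ℝ | ∃ s ∈ Icc (0 : ℝ) 1,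
        (∀ k, s * (-(L * u (Fin.castAdd m k).succ / u 0)) ≤ w (Fin.castAdd m k) ∧
          w (Fin.castAdd m k) ≤ s * (-(L * u (Fin.castAdd m k).succ / u 0)) + (1 - s)) ∧
        (∀ k, s * (-(L * u (Fin.natAdd m k).succ / u 0)) ≤ w (Fin.natAdd m k) ∧
          w (Fin.natAdd m k) ≤ s * (-(L * u (Fin.natAdd m k).succ / u 0)) + s)} ⊆
        ob u '' join m L := by
      rintro w ⟨s, ⟨hs0, hs1⟩, hw1, hw2⟩
      refine ⟨Fin.cons (s * L) fun j => w j + s * L / u 0 * u j.succ, ?_, ?_⟩
      · have hsL : s * L / L = s := by field_simp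
        refine ⟨?_, fun k => ?_, fun k => ?_⟩
        · simp only [Fin.cons_zero]
          constructor
          · positivity
          · nlinarith
        · simp only [Fin.cons_zero, Fin.cons_succ, hsL]
          have e : s * L / u 0 * u (Fin.castAdd m k).succ =
              -(s * (-(L * u (Fin.castAdd m k).succ / u 0))) := by ring
          rw [e]
          constructor <;> linarith [(hw1 k).1, (hw1 k).2]
        · simp only [Fin.cons_zero, Fin.cons_succ, hsL]
          have e : s * L / u 0 * u (Fin.natAdd m k).succ =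
              -(s * (-(L * u (Fin.natAdd m k).succ / u 0))) := by ring
          rw [e]
          constructor <;> linarith [(hw2 k).1, (hw2 k).2]
      · ext j
        simp only [ob, Fin.cons_zero, Fin.cons_succ]
        ring
    have h4 : ENNReal.ofReal c₀ ≤ volume (F.proj '' join m L) := by
      rw [h1]
      have h5 : ENNReal.ofReal c₀ =
          ENNReal.ofReal θ * ENNReal.ofReal (1 / (Nat.centralBinom m : ℝ)) := by
        rw [← ENNReal.ofReal_mul hθ0.le, hc0]
        congr 1
        ring
      rw [h5]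
      gcongr
      exact h2.trans (measure_mono h3)
    have h6 := ENNReal.toReal_mono hfin h4
    rwa [ENNReal.toReal_ofReal hc0pos.le] at h6
  · push Not at hω
    -- a coordinate of the horizontal part which is not small
    have hex : ∃ j : Fin (m + m), ε ≤ |u j.succ| := by
      by_contra hcon
      push Not at hcon
      have h1 : u ⬝ᵥ u = u 0 * u 0 + ∑ j : Fin (m + m), u j.succ * u j.succ := by
        simp only [dotProduct, Fin.sum_univ_succ]
      have h2 : ∑ j : Fin (m + m), u j.succ * u j.succ ≤ ∑ j : Fin (m + m), ε ^ 2 := by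
        refine Finset.sum_le_sum fun j _ => ?_
        have := hcon j
        have h3 : |u j.succ| * |u j.succ| ≤ ε * ε :=
          mul_le_mul this.le this.le (abs_nonneg _) hεpos.le
        rw [abs_mul_abs_self] at h3
        nlinarith
      have h4 : ∑ j : Fin (m + m), ε ^ 2 = ε ^ 2 * (2 * m) := by
        simp
        ring
      have h5 : u 0 * u 0 < θ ^ 2 := by
        have : |u 0| * |u 0| < θ * θ := mul_self_lt_mul_self (abs_nonneg _) hω
        rw [abs_mul_abs_self] at this
        nlinarith
      rw [hu] at h1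
      linarith
    obtain ⟨j, hj⟩ := hex
    set a : Fin (m + m + 1) → ℝ := Fin.cons (L / 4) fun _ => 0 with ha
    set b : Fin (m + m + 1) → ℝ := Fin.cons (3 * L / 4) fun _ => 1 / 4 with hb
    have hab : a ≤ b := by
      intro i
      refine Fin.cases ?_ (fun j => ?_) i
      · simp only [ha, hb, Fin.cons_zero]
        linarith
      · simp only [ha, hb, Fin.cons_succ]
        norm_num
    have hsub : Icc a b ⊆ join m L := by
      rintro x ⟨hx1, hx2⟩
      have h0 : L / 4 ≤ x 0 := by simpa [ha] using hx1 0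
      have h0' : x 0 ≤ 3 * L / 4 := by simpa [hb] using hx2 0
      have h1 : ∀ j : Fin (m + m), 0 ≤ x j.succ := fun j => by simpa [ha] using hx1 j.succ
      have h1' : ∀ j : Fin (m + m), x j.succ ≤ 1 / 4 := fun j => by
        simpa [hb] using hx2 j.succ
      have e1 : 1 / 4 ≤ x 0 / L := by
        rw [le_div_iff₀ hLpos]
        linarith
      have e2 : x 0 / L ≤ 3 / 4 := by
        rw [div_le_iff₀ hLpos]
        linarith
      exact ⟨⟨by linarith, by linarith⟩, fun k => ⟨h1 _, by linarith [h1' (Fin.castAdd m k)]⟩,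
        fun k => ⟨h1 _, by linarith [h1' (Fin.natAdd m k)]⟩⟩
    have hvol : (volume (Icc a b)).toReal = L / 2 * (1 / 4) ^ (m + m) := by
      rw [Real.volume_Icc_pi_toReal hab, Fin.prod_univ_succ]
      simp only [ha, hb, Fin.cons_zero, Fin.cons_succ, sub_zero, Finset.prod_const,
        Finset.card_univ, Fintype.card_fin]
      ring
    have hle : volume (Icc a b) ≤ ENNReal.ofReal (1 / (4 * ε)) * volume (F.proj '' Icc a b) := by
      refine F.volume_le hu h isCompact_Icc ?_
      intro x hx y hy hxy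
      have h1 := F.sub_eq hu h hxy
      have h2 := congrFun h1 j.succ
      simp only [Pi.sub_apply, Pi.smul_apply, smul_eq_mul] at h2
      have h3 : |x j.succ - y j.succ| ≤ 1 / 4 := by
        have hx1 : 0 ≤ x j.succ := by simpa [ha] using hx.1 j.succ
        have hx2 : x j.succ ≤ 1 / 4 := by simpa [hb] using hx.2 j.succ
        have hy1 : 0 ≤ y j.succ := by simpa [ha] using hy.1 j.succ
        have hy2 : y j.succ ≤ 1 / 4 := by simpa [hb] using hy.2 j.succ
        exact abs_le.2 ⟨by linarith, by linarith⟩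
      rw [h2, abs_mul] at h3
      rw [le_div_iff₀ (by positivity)]
      have h4 : |u ⬝ᵥ (x - y)| * ε ≤ |u ⬝ᵥ (x - y)| * |u j.succ| :=
        mul_le_mul_of_nonneg_left hj (abs_nonneg _)
      linarith
    have hfinR : volume (F.proj '' Icc a b) ≠ ∞ := F.volume_proj_ne_top isCompact_Icc
    have h5 := ENNReal.toReal_mono (ENNReal.mul_ne_top ENNReal.ofReal_ne_top hfinR) hle
    rw [ENNReal.toReal_mul, ENNReal.toReal_ofReal (by positivity), hvol] at h5
    have h6 : (volume (F.proj '' Icc a b)).toReal ≤ F.shadow (join m L) :=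
      ENNReal.toReal_mono hfin (measure_mono (image_mono hsub))
    have h7 : c₀ = L / 2 * (1 / 4) ^ (m + m) * (4 * ε) := by
      rw [hL]
      field_simp
      ring
    rw [h7]
    refine le_trans ?_ h6
    have h8 := mul_le_mul_of_nonneg_right h5 (by positivity : (0 : ℝ) ≤ 4 * ε)
    have h9 : 1 / (4 * ε) * (volume (F.proj '' Icc a b)).toReal * (4 * ε) =
        (volume (F.proj '' Icc a b)).toReal := by
      field_simp
    rw [h9] at h8
    exact h8

end Vale.Agent.P243.EveryDim
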