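import Vale.Agent.P243.H324.Cover
import Vale.Agent.P243.H324.BlockC

open MeasureTheory Set Filter Topology
open scoped ENNReal

namespace Vale.Agent.P243.EveryDim

variable {d : ℕ}

theorem CylinderCovering.totalArea_nonneg {K : Set (Fin (d + 1) → ℝ)} (C : CylinderCovering K) :
    0 ≤ C.totalArea := Finset.sum_nonneg fun _ _ => ENNReal.toReal_nonneg

theorem CylinderCovering.relArea_nonneg {K : Set (Fin (d + 1) → ℝ)} (C : CylinderCovering K) :
    0 ≤ C.relArea :=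
  Finset.sum_nonneg fun _ _ => div_nonneg ENNReal.toReal_nonneg (Frame.shadow_nonneg _ _)

theorem CylinderCovering.relArea_le {K : Set (Fin (d + 1) → ℝ)} (hK : IsConvexBody K)
    (C : CylinderCovering K) : C.relArea ≤ C.totalArea / Amin K := by
  have hA := Amin_pos hK
  unfold CylinderCovering.relArea CylinderCovering.totalArea
  rw [Finset.sum_div]
  refine Finset.sum_le_sum fun i _ => ?_
  exact div_le_div_of_nonneg_left ENNReal.toReal_nonneg hA (Amin_le _ K)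

theorem c_le {K : Set (Fin (d + 1) → ℝ)} (hK : IsConvexBody K) (C : CylinderCovering K) :
    c d ≤ C.totalArea / Amin K := by
  refine csInf_le ⟨0, ?_⟩ ⟨K, hK, C, rfl⟩
  rintro _ ⟨K', -, C', rfl⟩
  exact div_nonneg C'.totalArea_nonneg (Amin_nonneg K')

theorem r_le {K : Set (Fin (d + 1) → ℝ)} (hK : IsConvexBody K) (C : CylinderCovering K) :
    r d ≤ C.relArea := by
  refine csInf_le ⟨0, ?_⟩ ⟨K, hK, C, rfl⟩
  rintro _ ⟨K', -, C', rfl⟩
  exact C'.relArea_nonneg

theorem c_nonneg (d : ℕ) : 0 ≤ c d := by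
  refine Real.sInf_nonneg ?_
  rintro _ ⟨K', -, C', rfl⟩
  exact div_nonneg C'.totalArea_nonneg (Amin_nonneg K')

theorem r_nonneg (d : ℕ) : 0 ≤ r d := by
  refine Real.sInf_nonneg ?_
  rintro _ ⟨K', -, C', rfl⟩
  exact C'.relArea_nonneg

theorem c_le_of_good {t : ℝ} (h : Good d t) : c d ≤ t := by
  obtain ⟨K, hK, C, -, hC⟩ := h
  refine (c_le hK C).trans ?_
  rw [div_le_iff₀ (Amin_pos hK)]
  exact hC.le

theorem r_le_of_good {t : ℝ} (h : Good d t) : r d ≤ t := by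
  obtain ⟨K, hK, C, -, hC⟩ := h
  refine (r_le hK C).trans ((C.relArea_le hK).trans ?_)
  rw [div_le_iff₀ (Amin_pos hK)]
  exact hC.le

theorem exists_body_covering (d : ℕ) :
    ∃ K : Set (Fin (d + 1) → ℝ), IsConvexBody K ∧ Nonempty (CylinderCovering K) := by
  have hK : IsConvexBody (Icc (0 : Fin (d + 1) → ℝ) 1) := by
    refine ⟨isCompact_Icc, convex_Icc _ _, ?_⟩
    have ho : IsOpen (Set.pi univ fun _ : Fin (d + 1) => Ioo (0 : ℝ) 1) :=
      isOpen_set_pi finite_univ fun i _ => isOpen_Ioo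
    have hsub : (Set.pi univ fun _ : Fin (d + 1) => Ioo (0 : ℝ) 1) ⊆ Icc 0 1 := by
      intro x hx
      exact ⟨fun i => (hx i (mem_univ i)).1.le, fun i => (hx i (mem_univ i)).2.le⟩
    refine ⟨fun _ => 1 / 2, interior_maximal hsub ho ?_⟩
    intro i _
    constructor <;> norm_num
  obtain ⟨F⟩ := nonempty_frame d
  have hc := hK.1.image F.continuous_proj
  refine ⟨_, hK, ⟨⟨1, fun _ => F, fun _ => F.proj '' Icc 0 1,
    fun _ => hc.isClosed.measurableSet.nullMeasurableSet, fun _ => hc.measure_lt_top.ne, ?_⟩⟩⟩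
  intro x hx
  exact mem_iUnion.2 ⟨0, ⟨x, hx, rfl⟩⟩

/-- The least shadow of a thin slab. -/
theorem Amin_slab_ge {K : Set (Fin (d + 1) → ℝ)} (hK : IsConvexBody K) {δ : ℝ} (hδ0 : 0 < δ)
    (hδ1 : δ < 1) : ∃ h : ℝ, 0 < h ∧ h * Real.sqrt (1 - δ ^ 2) * Amin K ≤ Amin (slab h K) := by
  have hA := Amin_pos hK
  have hvol : 0 < (volume K).toReal := by
    refine ENNReal.toReal_pos ?_ hK.1.measure_lt_top.ne
    exact (lt_of_lt_of_le (isOpen_interior.measure_pos volume hK.2.2)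
      (measure_mono interior_subset)).ne'
  set h : ℝ := δ * (volume K).toReal / Amin K with hh
  have hpos : 0 < h := by positivity
  refine ⟨h, hpos, ?_⟩
  have := nonempty_frame (d + 1)
  refine le_ciInf fun F => ?_
  rcases slab_shadow_ge hpos hK hδ0.le hδ1 F with h1 | h1
  · refine le_trans ?_ h1
    have h2 : h * Amin K = δ * (volume K).toReal := by
      rw [hh]
      field_simp
    have h3 : Real.sqrt (1 - δ ^ 2) ≤ 1 := by
      rw [Real.sqrt_le_one]
      nlinarith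
    rw [← h2, mul_assoc, mul_comm (Real.sqrt _), ← mul_assoc]
    exact mul_le_of_le_one_right (by positivity) h3
  · exact h1

theorem tendsto_sqrt_one_sub : Tendsto (fun δ : ℝ => Real.sqrt (1 - δ ^ 2)) (𝓝[>] 0) (𝓝 1) := by
  have h1 : Continuous fun δ : ℝ => Real.sqrt (1 - δ ^ 2) := by fun_prop
  have h2 := (h1.tendsto 0).mono_left (nhdsWithin_le_nhds (s := Ioi (0 : ℝ)))
  simpa using h2

theorem good_succ {t : ℝ} (h : Good d t) : Good (d + 1) t := by
  obtain ⟨K, hK, C, hb, hC⟩ := h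
  have hA := Amin_pos hK
  have htpos : 0 < t := by
    by_contra hcon
    push Not at hcon
    have := C.totalArea_nonneg
    nlinarith
  obtain ⟨δ, hδ0, hδ1, hδ⟩ : ∃ δ : ℝ, 0 < δ ∧ δ < 1 ∧
      C.totalArea < t * (Real.sqrt (1 - δ ^ 2) * Amin K) := by
    have h1 : Tendsto (fun δ : ℝ => t * (Real.sqrt (1 - δ ^ 2) * Amin K)) (𝓝[>] 0)
        (𝓝 (t * (1 * Amin K))) := (tendsto_sqrt_one_sub.mul_const _).const_mul _
    rw [one_mul] at h1
    have h2 := h1.eventually (lt_mem_nhds hC)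
    have h3 : ∀ᶠ δ : ℝ in 𝓝[>] 0, δ < 1 := nhdsWithin_le_nhds (gt_mem_nhds one_pos)
    obtain ⟨δ, ⟨h4, h5⟩, h6⟩ := ((h2.and h3).and self_mem_nhdsWithin).exists
    exact ⟨δ, h6, h5, h4⟩
  obtain ⟨h, hh, hAs⟩ := Amin_slab_ge hK hδ0 hδ1
  obtain ⟨C', hC', -, hb'⟩ := slab_covering hh hK C
  refine ⟨slab h K, isConvexBody_slab hh hK, C', hb' hb, ?_⟩
  rw [hC']
  calc h * C.totalArea < h * (t * (Real.sqrt (1 - δ ^ 2) * Amin K)) :=
        mul_lt_mul_of_pos_left hδ hh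
    _ = t * (h * Real.sqrt (1 - δ ^ 2) * Amin K) := by ring
    _ ≤ t * Amin (slab h K) := mul_le_mul_of_nonneg_left hAs htpos.le

theorem good_mono {d e : ℕ} {t : ℝ} (hde : d ≤ e) (h : Good d t) : Good e t := by
  induction hde with
  | refl => exact h
  | step _ ih => exact good_succ ih

theorem c_succ_le (d : ℕ) : c (d + 1) ≤ c d := by
  obtain ⟨K₀, hK₀, ⟨C₀⟩⟩ := exists_body_covering d
  refine le_csInf ⟨_, K₀, hK₀, C₀, rfl⟩ ?_
  rintro _ ⟨K, hK, C, rfl⟩
  have hA := Amin_pos hK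
  have key : ∀ᶠ δ : ℝ in 𝓝[>] 0, c (d + 1) * Real.sqrt (1 - δ ^ 2) ≤ C.totalArea / Amin K := by
    have h3 : ∀ᶠ δ : ℝ in 𝓝[>] 0, δ < 1 := nhdsWithin_le_nhds (gt_mem_nhds one_pos)
    filter_upwards [h3, self_mem_nhdsWithin] with δ hδ1 hδ0
    obtain ⟨h, hh, hAs⟩ := Amin_slab_ge hK hδ0 hδ1
    obtain ⟨C', hC', -, -⟩ := slab_covering hh hK C
    have h4 := c_le (isConvexBody_slab hh hK) C'
    have h5 := Amin_pos (isConvexBody_slab hh hK)
    rw [hC', le_div_iff₀ h5] at h4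
    rw [le_div_iff₀ hA]
    have h6 : c (d + 1) * (h * Real.sqrt (1 - δ ^ 2) * Amin K) ≤ h * C.totalArea :=
      (mul_le_mul_of_nonneg_left hAs (c_nonneg _)).trans h4
    have h7 : h * (c (d + 1) * Real.sqrt (1 - δ ^ 2) * Amin K) ≤ h * C.totalArea := by
      calc _ = c (d + 1) * (h * Real.sqrt (1 - δ ^ 2) * Amin K) := by ring
        _ ≤ _ := h6
    exact le_of_mul_le_mul_left h7 hh
  have hlim : Tendsto (fun δ : ℝ => c (d + 1) * Real.sqrt (1 - δ ^ 2)) (𝓝[>] 0)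
      (𝓝 (c (d + 1) * 1)) := tendsto_sqrt_one_sub.const_mul _
  rw [mul_one] at hlim
  exact le_of_tendsto hlim key

theorem r_succ_le (d : ℕ) : r (d + 1) ≤ r d := by
  obtain ⟨K₀, hK₀, ⟨C₀⟩⟩ := exists_body_covering d
  refine le_csInf ⟨_, K₀, hK₀, C₀, rfl⟩ ?_
  rintro _ ⟨K, hK, C, rfl⟩
  obtain ⟨C', -, hC', -⟩ := slab_covering one_pos hK C
  rw [← hC']
  exact r_le (isConvexBody_slab one_pos hK) C'

theorem c_join_le {m : ℕ} (hm : 1 ≤ m) : c (2 * m) ≤ (Nat.centralBinom m : ℝ) / 4 ^ m := by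
  rw [two_mul]
  exact le_of_forall_gt_imp_ge_of_dense fun t ht => c_le_of_good (good_join hm ht)

theorem r_join_le {m : ℕ} (hm : 1 ≤ m) : r (2 * m) ≤ (Nat.centralBinom m : ℝ) / 4 ^ m := by
  rw [two_mul]
  exact le_of_forall_gt_imp_ge_of_dense fun t ht => r_le_of_good (good_join hm ht)

theorem centralBinom_le (m : ℕ) :
    (Nat.centralBinom m : ℝ) / 4 ^ m ≤ 1 / Real.sqrt (2 * (m : ℝ) + 1) := by
  have h1 := centralBinom_sq m
  have h2 : 0 ≤ (Nat.centralBinom m : ℝ) / 4 ^ m := by positivity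
  have h3 : 1 / Real.sqrt (2 * (m : ℝ) + 1) = Real.sqrt (1 / (2 * (m : ℝ) + 1)) := by
    rw [Real.sqrt_div zero_le_one, Real.sqrt_one]
  rw [h3]
  exact Real.le_sqrt_of_sq_le h1

/-- In dimension `n = d + 1 ≥ 3` some convex body is covered by cylinders with compact convex bases
of total base volume at most `(1 / √(n - 1) + ε)` times the least shadow. -/
theorem good_sqrt {d : ℕ} (hd : 2 ≤ d) {t : ℝ} (ht : 1 / Real.sqrt d < t) : Good d t := by
  obtain ⟨m, hm | hm⟩ := Nat.even_or_odd' d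
  · have hm1 : 1 ≤ m := by omega
    rw [hm, two_mul]
    refine good_join hm1 (lt_of_le_of_lt ?_ ht)
    refine (centralBinom_le m).trans ?_
    refine one_div_le_one_div_of_le (Real.sqrt_pos.2 (by positivity)) (Real.sqrt_le_sqrt ?_)
    rw [hm]
    push_cast
    linarith
  · have hm1 : 1 ≤ m := by omega
    rw [hm]
    refine good_succ ?_
    rw [two_mul]
    refine good_join hm1 (lt_of_le_of_lt ?_ ht)
    refine (centralBinom_le m).trans ?_
    refine one_div_le_one_div_of_le (Real.sqrt_pos.2 (by positivity)) (Real.sqrt_le_sqrt ?_)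
    rw [hm]
    push_cast
    exact le_refl _

theorem c_le_sqrt {d : ℕ} (hd : 2 ≤ d) : c d ≤ 1 / Real.sqrt d :=
  le_of_forall_gt_imp_ge_of_dense fun _ ht => c_le_of_good (good_sqrt hd ht)

theorem r_le_sqrt {d : ℕ} (hd : 2 ≤ d) : r d ≤ 1 / Real.sqrt d :=
  le_of_forall_gt_imp_ge_of_dense fun _ ht => r_le_of_good (good_sqrt hd ht)

theorem tendsto_one_div_sqrt : Tendsto (fun d : ℕ => 1 / Real.sqrt d) atTop (𝓝 0) := by
  have h1 : Tendsto (fun d : ℕ => Real.sqrt d) atTop atTop :=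
    Real.tendsto_sqrt_atTop.comp tendsto_natCast_atTop_atTop
  simp only [one_div]
  exact h1.inv_tendsto_atTop

theorem tendsto_c : Tendsto c atTop (𝓝 0) := by
  refine squeeze_zero' (Eventually.of_forall c_nonneg) ?_ tendsto_one_div_sqrt
  filter_upwards [eventually_ge_atTop 2] with d hd using c_le_sqrt hd

theorem tendsto_r : Tendsto r atTop (𝓝 0) := by
  refine squeeze_zero' (Eventually.of_forall r_nonneg) ?_ tendsto_one_div_sqrt
  filter_upwards [eventually_ge_atTop 2] with d hd using r_le_sqrt hd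

end Vale.Agent.P243.EveryDim
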